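import Vale.Agent.Lib.P254b.Main3

/-!
# P248 (Mahler volume product): definitions

`E n = Fin n → ℝ`, `pyramid K = {((1-t) x, t)}`, `IsSimplex` are taken from the P254 library.
-/

namespace P248

open MeasureTheory P254
open scoped ENNReal

/-- The polar `(K - z)° = {y : ⟨y, x - z⟩ ≤ 1 for all x ∈ K}`. -/
def polarAt {n : ℕ} (K : Set (E n)) (z : E n) : Set (E n) :=
  {y | ∀ x ∈ K, ∑ i, y i * (x i - z i) ≤ 1}

/-- The volume product `P(K) = inf_{z ∈ int K} |K| |(K - z)°|`, with values in `[0,∞]`. -/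
noncomputable def volProd {n : ℕ} (K : Set (E n)) : ℝ≥0∞ :=
  ⨅ z ∈ interior K, volume K * volume (polarAt K z)

/-- The conjectured minimum `(n+1)^(n+1) / (n!)^2`. -/
noncomputable def mC (n : ℕ) : ℝ := ((n : ℝ) + 1) ^ (n + 1) / ((n.factorial : ℝ)) ^ 2

/-- Convex bodies. -/
def Body {n : ℕ} (K : Set (E n)) : Prop := IsCompact K ∧ Convex ℝ K ∧ (interior K).Nonempty

/-- `K` satisfies the general Mahler conjecture with its equality clause. -/
def MahlerFor {n : ℕ} (K : Set (E n)) : Prop :=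
  ENNReal.ofReal (mC n) ≤ volProd K ∧ (volProd K = ENNReal.ofReal (mC n) ↔ IsSimplex K)

/-- Q2 in dimension `n`. -/
def MahlerQ2 (n : ℕ) : Prop := ∀ K : Set (E n), Body K → MahlerFor K

/-! ### working objects -/

/-- the point `(x, t)` of `ℝ^(n+1)` -/
def pt {n : ℕ} (x : E n) (t : ℝ) : E (n + 1) := Fin.append x (fun _ : Fin 1 => t)

/-- the sheared polar of the pyramid about `((1-s) z, s)` -/
def TT {n : ℕ} (K : Set (E n)) (z : E n) (s : ℝ) : Set (E n × ℝ) :=
  {p | (1 - s) * p.2 ≤ 1 ∧ ∀ x ∈ K, ∑ i, p.1 i * (x i - z i) ≤ 1 + s * p.2}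

end P248
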