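import Vale.Agent.Lib.P248.Defs

namespace P248

open MeasureTheory P254
open scoped ENNReal

theorem eq_pt_piD {n : ℕ} (w : E (n + 1)) : w = pt (piD w) (w (Fin.natAdd n 0)) := by
  ext j
  refine Fin.addCases (fun i => ?_) (fun i => ?_) j
  · simp [pt, piD]
  · have : i = 0 := Subsingleton.elim _ _
    subst this
    simp [pt]

theorem continuous_pt {n : ℕ} : Continuous (fun p : E n × ℝ => pt p.1 p.2) := by
  refine continuous_pi (fun j => ?_)
  refine Fin.addCases (fun i => ?_) (fun i => ?_) j
  · simp only [pt, Fin.append_left]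
    exact (continuous_apply i).comp continuous_fst
  · simp only [pt, Fin.append_right]
    exact continuous_snd

theorem continuous_piD {n : ℕ} : Continuous (piD : E (n + 1) → E n) :=
  continuous_pi (fun _ => continuous_apply _)

/-- D1. `w = ((1-s)x, s)` with `x ∈ K`, `0 ≤ s ≤ 1`.  `s < 1` and `0 < s`: otherwise `w ± ε e_last`
would lie in the pyramid although its last coordinate is outside `[0,1]`.  `x ∈ interior K`: the map
`x' ↦ pt ((1-s) • x') s` is continuous, the preimage of `interior (pyramid K)` is open, contains `x`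
and is contained in `K` (compare last coordinates, then cancel `1 - s`). -/
theorem exists_of_mem_interior_pyramid {n : ℕ} (K : Set (E n)) (w : E (n + 1))
    (hw : w ∈ interior (pyramid K)) :
    ∃ z ∈ interior K, ∃ s : ℝ, 0 < s ∧ s < 1 ∧ w = pt ((1 - s) • z) s := by
  obtain ⟨s, hs0, hs1, x, hx, hwx⟩ := interior_subset hw
  have hwx' : w = pt ((1 - s) • x) s := hwx
  -- the line in the last coordinate
  have hline : Continuous (fun r : ℝ => pt ((1 - s) • x) r) :=
    continuous_pt.comp (continuous_const.prodMk continuous_id)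
  have hO : IsOpen ((fun r : ℝ => pt ((1 - s) • x) r) ⁻¹' interior (pyramid K)) :=
    isOpen_interior.preimage hline
  have hsO : s ∈ ((fun r : ℝ => pt ((1 - s) • x) r) ⁻¹' interior (pyramid K)) := by
    show pt ((1 - s) • x) s ∈ interior (pyramid K)
    rw [← hwx']; exact hw
  obtain ⟨ε, hε, hball⟩ := Metric.isOpen_iff.1 hO s hsO
  have hrange : ∀ r : ℝ, pt ((1 - s) • x) r ∈ interior (pyramid K) → 0 ≤ r ∧ r ≤ 1 := by
    intro r hr
    obtain ⟨t, ht0, ht1, y, _, hy⟩ := interior_subset hr
    have := congrFun hy (Fin.natAdd n 0)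
    simp only [pt, Fin.append_right] at this
    rw [this]; exact ⟨ht0, ht1⟩
  have hp : s + ε / 2 ∈ Metric.ball s ε := by
    rw [Metric.mem_ball, Real.dist_eq]
    rw [show s + ε / 2 - s = ε / 2 by ring, abs_of_pos (by positivity)]
    linarith
  have hm : s - ε / 2 ∈ Metric.ball s ε := by
    rw [Metric.mem_ball, Real.dist_eq]
    rw [show s - ε / 2 - s = -(ε / 2) by ring, abs_neg, abs_of_pos (by positivity)]
    linarith
  have h1 := (hrange _ (hball hp)).2
  have h0 := (hrange _ (hball hm)).1
  have hs0' : 0 < s := by linarith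
  have hs1' : s < 1 := by linarith
  have h2 : (1 - s) ≠ 0 := by
    intro h; linarith
  refine ⟨x, ?_, s, hs0', hs1', hwx'⟩
  have hmap : Continuous (fun x' : E n => pt ((1 - s) • x') s) :=
    continuous_pt.comp ((continuous_const_smul (1 - s)).prodMk continuous_const)
  have hO2 : IsOpen ((fun x' : E n => pt ((1 - s) • x') s) ⁻¹' interior (pyramid K)) :=
    isOpen_interior.preimage hmap
  refine interior_maximal ?_ hO2 (by show pt ((1 - s) • x) s ∈ interior (pyramid K); rw [← hwx']; exact hw)
  intro x' hx'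
  obtain ⟨t, _, _, y, hy, hyy⟩ := interior_subset (show pt ((1 - s) • x') s ∈ interior (pyramid K) from hx')
  have e1 := congrFun hyy (Fin.natAdd n 0)
  simp only [pt, Fin.append_right] at e1
  have e2 := congrArg piD hyy
  rw [pt, piD_append, piD_append, ← e1] at e2
  have e3 : x' = y := by
    have := congrArg (fun v => (1 - s)⁻¹ • v) e2
    simpa [smul_smul, inv_mul_cancel₀ h2] using this
  rw [e3]; exact hy

/-- D2. `U = {w | 0 < w_last < 1 ∧ (1 - w_last)⁻¹ • piD w ∈ interior K}` is open (continuity of
`w ↦ (1 - w_last)⁻¹ • piD w` on the open set `w_last < 1`), contains the point and is contained in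
the pyramid. (`piD`, `piD_append`, `last_append_D` are in `P254b/SimpD.lean`.) -/
theorem mem_interior_pyramid {n : ℕ} (K : Set (E n)) (z : E n) (hz : z ∈ interior K) (s : ℝ)
    (h0 : 0 < s) (h1 : s < 1) :
    pt ((1 - s) • z) s ∈ interior (pyramid K) := by
  set U : Set (E (n + 1)) := {w | 0 < w (Fin.natAdd n 0) ∧ w (Fin.natAdd n 0) < 1 ∧
    (1 - w (Fin.natAdd n 0))⁻¹ • piD w ∈ interior K} with hU
  have hlast : Continuous (fun w : E (n + 1) => w (Fin.natAdd n 0)) := continuous_apply _
  have hV : IsOpen {w : E (n + 1) | 0 < w (Fin.natAdd n 0) ∧ w (Fin.natAdd n 0) < 1} :=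
    (isOpen_lt continuous_const hlast).inter (isOpen_lt hlast continuous_const)
  have hcont : ContinuousOn (fun w : E (n + 1) => (1 - w (Fin.natAdd n 0))⁻¹ • piD w)
      {w : E (n + 1) | 0 < w (Fin.natAdd n 0) ∧ w (Fin.natAdd n 0) < 1} := by
    have hi : ContinuousOn (fun w : E (n + 1) => (1 - w (Fin.natAdd n 0))⁻¹)
        {w : E (n + 1) | 0 < w (Fin.natAdd n 0) ∧ w (Fin.natAdd n 0) < 1} := by
      refine ContinuousOn.inv₀ (continuous_const.sub hlast).continuousOn ?_
      intro w hw
      have := hw.2
      intro h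
      linarith
    exact hi.smul (continuous_piD (n := n)).continuousOn
  have hUo : IsOpen U := by
    have := hcont.isOpen_inter_preimage hV (isOpen_interior (s := K))
    convert this using 1
    ext w
    simp only [hU, Set.mem_setOf_eq, Set.mem_inter_iff, Set.mem_preimage]
    tauto
  have hsub : U ⊆ pyramid K := by
    intro w hw
    obtain ⟨a, b, c⟩ := hw
    refine ⟨w (Fin.natAdd n 0), a.le, b.le, _, interior_subset c, ?_⟩
    have h2 : (1 - w (Fin.natAdd n 0)) ≠ 0 := by
      intro h; linarith
    rw [smul_smul, mul_inv_cancel₀ h2, one_smul]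
    exact eq_pt_piD w
  have hmem : pt ((1 - s) • z) s ∈ U := by
    have e1 : (pt ((1 - s) • z) s) (Fin.natAdd n 0) = s := by simp [pt]
    have e2 : piD (pt ((1 - s) • z) s) = (1 - s) • z := piD_append _ _
    have h2 : (1 - s) ≠ 0 := by
      intro h; linarith
    refine ⟨by rw [e1]; exact h0, by rw [e1]; exact h1, ?_⟩
    rw [e1, e2, smul_smul, inv_mul_cancel₀ h2, one_smul]
    exact hz
  exact interior_maximal hsub hUo hmem

end P248
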