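import Vale.Agent.Lib.P248.JMain
import Vale.Agent.Lib.P254c.Asym

/-! # P248: tensor power trick with joins for the non-symmetric volume product -/

namespace P248
open MeasureTheory P254
open scoped ENNReal

theorem body_joinPow {n : ℕ} (K : Set (E n)) (h : Body K) (k : ℕ) : Body (joinPow K k) := by
  induction k with
  | zero => exact h
  | succ k ih => exact body_join _ _ ih h

theorem volProd_joinPow {n : ℕ} (K : Set (E n)) (h : Body K) (k : ℕ) :
    volProd (joinPow K k) * (ENNReal.ofReal (mC n)) ^ (k + 1)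
      = ENNReal.ofReal (mC (dimJ n k)) * (volProd K) ^ (k + 1) := by
  induction k with
  | zero =>
    show volProd K * (ENNReal.ofReal (mC n)) ^ (0 + 1) = ENNReal.ofReal (mC n) * (volProd K) ^ (0 + 1)
    ring
  | succ k ih =>
    have hb := body_joinPow K h k
    have e1 : volProd (joinPow K (k + 1))
        = ENNReal.ofReal (mC (dimJ n k + n + 1) / (mC (dimJ n k) * mC n))
          * (volProd (joinPow K k) * volProd K) := volProd_join _ _ hb.1 h.1 hb.2.2 h.2.2
    have e2 : ENNReal.ofReal (mC (dimJ n (k + 1)))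
        = ENNReal.ofReal (mC (dimJ n k + n + 1) / (mC (dimJ n k) * mC n))
          * (ENNReal.ofReal (mC (dimJ n k)) * ENNReal.ofReal (mC n)) := ofReal_mC_join (dimJ n k) n
    rw [e1, e2]
    generalize ENNReal.ofReal (mC (dimJ n k + n + 1) / (mC (dimJ n k) * mC n)) = κ
    generalize ENNReal.ofReal (mC n) = c at ih ⊢
    generalize ENNReal.ofReal (mC (dimJ n k)) = Ck at ih ⊢
    generalize volProd (joinPow K k) = Vk at ih ⊢
    generalize volProd K = V at ih ⊢
    calc κ * (Vk * V) * c ^ (k + 1 + 1) = κ * ((Vk * c ^ (k + 1)) * (V * c)) := by ring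
      _ = κ * ((Ck * V ^ (k + 1)) * (V * c)) := by rw [ih]
      _ = κ * (Ck * c) * V ^ (k + 1 + 1) := by ring

theorem mahler_of_asym
    (h : ∀ θ : ℝ, 0 < θ → θ < 1 → ∃ N0 : ℕ, ∀ N : ℕ, N0 ≤ N → ∀ K : Set (E N), Body K →
      ENNReal.ofReal (θ ^ N * mC N) ≤ volProd K) :
    ∀ (n : ℕ) (K : Set (E n)), Body K → ENNReal.ofReal (mC n) ≤ volProd K := by
  intro n K hK
  by_cases hV : volProd K = ⊤
  · rw [hV]; exact le_top
  have hv : volProd K = ENNReal.ofReal (volProd K).toReal := (ENNReal.ofReal_toReal hV).symm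
  have hv0 : 0 ≤ (volProd K).toReal := ENNReal.toReal_nonneg
  generalize (volProd K).toReal = v at hv hv0
  rw [hv]
  apply ENNReal.ofReal_le_ofReal
  have hc := mC_pos n
  have key : ∀ θ : ℝ, 0 < θ → θ < 1 → θ ^ (n + 1) * mC n ≤ v := by
    intro θ h0 h1
    obtain ⟨N0, hN0⟩ := h θ h0 h1
    have hd := dimJ_succ_eq n N0
    have hdim : N0 ≤ dimJ n N0 := by nlinarith
    have a := hN0 _ hdim _ (body_joinPow K hK N0)
    have b := volProd_joinPow K hK N0
    have hC := mC_pos (dimJ n N0)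
    have c1 : ENNReal.ofReal (θ ^ dimJ n N0 * mC (dimJ n N0)) * ENNReal.ofReal (mC n) ^ (N0 + 1)
        ≤ ENNReal.ofReal (mC (dimJ n N0)) * volProd K ^ (N0 + 1) := by
      rw [← b]
      exact mul_le_mul' a le_rfl
    rw [hv, ← ENNReal.ofReal_pow hc.le, ← ENNReal.ofReal_pow hv0,
      ← ENNReal.ofReal_mul (mul_nonneg (pow_nonneg h0.le _) hC.le),
      ← ENNReal.ofReal_mul hC.le] at c1
    have c2 := (ENNReal.ofReal_le_ofReal_iff (mul_nonneg hC.le (pow_nonneg hv0 _))).1 c1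
    have c3 : θ ^ dimJ n N0 * mC n ^ (N0 + 1) ≤ v ^ (N0 + 1) := by
      refine le_of_mul_le_mul_left ?_ hC
      calc mC (dimJ n N0) * (θ ^ dimJ n N0 * mC n ^ (N0 + 1))
          = θ ^ dimJ n N0 * mC (dimJ n N0) * mC n ^ (N0 + 1) := by ring
        _ ≤ _ := c2
    have c4 : (θ ^ (n + 1) * mC n) ^ (N0 + 1) ≤ v ^ (N0 + 1) := by
      rw [mul_pow, ← pow_mul]
      refine le_trans ?_ c3
      apply mul_le_mul_of_nonneg_right _ (pow_nonneg hc.le _)
      exact pow_le_pow_of_le_one h0.le h1.le (by nlinarith)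
    exact (pow_le_pow_iff_left₀ (mul_nonneg (pow_nonneg h0.le _) hc.le) hv0
      (Nat.succ_ne_zero _)).1 c4
  have hcont : Filter.Tendsto (fun θ : ℝ => θ ^ (n + 1) * mC n) (nhdsWithin 1 (Set.Iio 1))
      (nhds (1 ^ (n + 1) * mC n)) := by
    have : Continuous fun θ : ℝ => θ ^ (n + 1) * mC n := by fun_prop
    exact (this.tendsto 1).mono_left nhdsWithin_le_nhds
  have hev : ∀ᶠ θ in nhdsWithin (1 : ℝ) (Set.Iio 1), θ ^ (n + 1) * mC n ≤ v := by
    have h1 : Set.Ioo (0 : ℝ) 1 ∈ nhdsWithin (1 : ℝ) (Set.Iio 1) := Ioo_mem_nhdsLT (by norm_num)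
    filter_upwards [h1] with θ hθ
    exact key θ hθ.1 hθ.2
  have := le_of_tendsto hcont hev
  simpa using this

theorem asym_of_mahler
    (h : ∀ (n : ℕ) (K : Set (E n)), Body K → ENNReal.ofReal (mC n) ≤ volProd K) :
    ∀ θ : ℝ, 0 < θ → θ < 1 → ∃ N0 : ℕ, ∀ N : ℕ, N0 ≤ N → ∀ K : Set (E N), Body K →
      ENNReal.ofReal (θ ^ N * mC N) ≤ volProd K := by
  intro θ h0 h1
  refine ⟨0, fun N _ K hK => le_trans (ENNReal.ofReal_le_ofReal ?_) (h N K hK)⟩
  have hC := mC_pos N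
  have : θ ^ N ≤ 1 := pow_le_one₀ h0.le h1.le
  nlinarith

end P248
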