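import Vale.Agent.Lib.P248.Main

/-!
# P248, part 2: the volume product of a join -- working definitions
`join K K' = {((1-t) x, t y, t)} ⊆ ℝ^(n+m+1)` is `P254.join`.
-/

namespace P248

open MeasureTheory P254
open scoped ENNReal

/-- the point `(ξ, η, τ)` of `ℝ^(n+m+1)` -/
def pt3 {n m : ℕ} (ξ : E n) (η : E m) (τ : ℝ) : E (n + m + 1) :=
  Fin.append (Fin.append ξ η) (fun _ : Fin 1 => τ)

/-- first `n` coordinates -/
def fstP {n m : ℕ} (ζ : E (n + m)) : E n := fun i => ζ (Fin.castAdd m i)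

/-- last `m` coordinates -/
def sndP {n m : ℕ} (ζ : E (n + m)) : E m := fun j => ζ (Fin.natAdd n j)

/-- `c (K - z)°` (for `c > 0`) -/
def scaled {n : ℕ} (K : Set (E n)) (z : E n) (c : ℝ) : Set (E n) :=
  {η | ∀ x ∈ K, ∑ i, η i * (x i - z i) ≤ c}

/-- the sheared polar of the join about `((1-s) z, s z', s)` -/
def TJ {n m : ℕ} (K : Set (E n)) (K' : Set (E m)) (z : E n) (z' : E m) (s : ℝ) :
    Set (E (n + m) × ℝ) :=
  {p | fstP p.1 ∈ scaled K z (1 + s * p.2) ∧ sndP p.1 ∈ scaled K' z' (1 - (1 - s) * p.2)}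

/-- the inequality of Q2 for `K`, with equality only for simplices -/
def MahlerStrong {n : ℕ} (K : Set (E n)) : Prop :=
  ENNReal.ofReal (mC n) ≤ volProd K ∧ (volProd K = ENNReal.ofReal (mC n) → IsSimplex K)

end P248
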