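import Vale.Agent.Lib.P248.JDefs

namespace P248

open MeasureTheory P254
open scoped ENNReal

theorem fstP_append {n m : ℕ} (ξ : E n) (η : E m) : fstP (Fin.append ξ η : E (n + m)) = ξ := by
  ext i
  simp [fstP]

theorem sndP_append {n m : ℕ} (ξ : E n) (η : E m) : sndP (Fin.append ξ η : E (n + m)) = η := by
  ext i
  simp [sndP]

theorem append_fstP_sndP {n m : ℕ} (ζ : E (n + m)) : ζ = Fin.append (fstP ζ) (sndP ζ) := by
  ext j
  refine Fin.addCases (fun i => ?_) (fun i => ?_) j
  · simp [fstP]
  · simp [sndP]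

theorem continuous_fstP {n m : ℕ} : Continuous (fstP : E (n + m) → E n) :=
  continuous_pi (fun _ => continuous_apply _)

theorem continuous_sndP {n m : ℕ} : Continuous (sndP : E (n + m) → E m) :=
  continuous_pi (fun _ => continuous_apply _)

theorem continuous_pt3 {n m : ℕ} :
    Continuous (fun p : (E n × E m) × ℝ => pt3 p.1.1 p.1.2 p.2) := by
  refine continuous_pi (fun j => ?_)
  refine Fin.addCases (fun i => ?_) (fun i => ?_) j
  · simp only [pt3, Fin.append_left]
    refine Fin.addCases (fun k => ?_) (fun k => ?_) i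
    · simp only [Fin.append_left]
      exact (continuous_apply k).comp (continuous_fst.comp continuous_fst)
    · simp only [Fin.append_right]
      exact (continuous_apply k).comp (continuous_snd.comp continuous_fst)
  · simp only [pt3, Fin.append_right]
    exact continuous_snd

theorem last_pt3 {n m : ℕ} (ξ : E n) (η : E m) (τ : ℝ) :
    (pt3 ξ η τ) (Fin.natAdd (n + m) 0) = τ := by
  simp [pt3]

theorem fst_pt3 {n m : ℕ} (ξ : E n) (η : E m) (τ : ℝ) : fstP (piD (pt3 ξ η τ)) = ξ := by
  rw [pt3, piD_append, fstP_append]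

theorem snd_pt3 {n m : ℕ} (ξ : E n) (η : E m) (τ : ℝ) : sndP (piD (pt3 ξ η τ)) = η := by
  rw [pt3, piD_append, sndP_append]

theorem eq_pt3 {n m : ℕ} (w : E (n + m + 1)) :
    w = pt3 (fstP (piD w)) (sndP (piD w)) (w (Fin.natAdd (n + m) 0)) := by
  have h := eq_pt_piD w
  rw [pt3, ← append_fstP_sndP]
  exact h

/-- J8. Pattern: `exists_of_mem_interior_pyramid` in Interior.lean.  `w = ((1-s)x, sy, s)`;
`0 < s < 1` by moving the last coordinate; the maps `x' ↦ pt3 ((1-s)•x') (s•y) s` and
`y' ↦ pt3 ((1-s)•x) (s•y') s` are continuous and pull `interior (join K K')` back into `K`, `K'`. -/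
theorem exists_of_mem_interior_join {n m : ℕ} (K : Set (E n)) (K' : Set (E m)) (w : E (n + m + 1))
    (hw : w ∈ interior (join K K')) :
    ∃ z ∈ interior K, ∃ z' ∈ interior K', ∃ s : ℝ, 0 < s ∧ s < 1 ∧
      w = pt3 ((1 - s) • z) (s • z') s := by
  obtain ⟨s, hs0, hs1, x, hx, y, hy, hwx⟩ := interior_subset hw
  have hwx' : w = pt3 ((1 - s) • x) (s • y) s := hwx
  have hline : Continuous (fun r : ℝ => pt3 ((1 - s) • x) (s • y) r) :=
    continuous_pt3.comp
      ((continuous_const (y := (((1 - s) • x, s • y) : E n × E m))).prodMk continuous_id)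
  have hO : IsOpen ((fun r : ℝ => pt3 ((1 - s) • x) (s • y) r) ⁻¹' interior (join K K')) :=
    isOpen_interior.preimage hline
  have hsO : s ∈ ((fun r : ℝ => pt3 ((1 - s) • x) (s • y) r) ⁻¹' interior (join K K')) := by
    show pt3 ((1 - s) • x) (s • y) s ∈ interior (join K K')
    rw [← hwx']; exact hw
  obtain ⟨ε, hε, hball⟩ := Metric.isOpen_iff.1 hO s hsO
  have hrange : ∀ r : ℝ, pt3 ((1 - s) • x) (s • y) r ∈ interior (join K K') → 0 ≤ r ∧ r ≤ 1 := by
    intro r hr
    obtain ⟨t, ht0, ht1, a, _, b, _, hab⟩ := interior_subset hr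
    have hab' : pt3 ((1 - s) • x) (s • y) r = pt3 ((1 - t) • a) (t • b) t := hab
    have := congrFun hab' (Fin.natAdd (n + m) 0)
    rw [last_pt3, last_pt3] at this
    rw [this]; exact ⟨ht0, ht1⟩
  have hp : s + ε / 2 ∈ Metric.ball s ε := by
    rw [Metric.mem_ball, Real.dist_eq]
    rw [show s + ε / 2 - s = ε / 2 by ring, abs_of_pos (by positivity)]
    linarith
  have hm : s - ε / 2 ∈ Metric.ball s ε := by
    rw [Metric.mem_ball, Real.dist_eq]
    rw [show s - ε / 2 - s = -(ε / 2) by ring, abs_neg, abs_of_pos (by positivity)]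
    linarith
  have h1 := (hrange _ (hball hp)).2
  have h0 := (hrange _ (hball hm)).1
  have hs0' : 0 < s := by linarith
  have hs1' : s < 1 := by linarith
  have h2 : (1 - s) ≠ 0 := by
    intro h; linarith
  have hbase : pt3 ((1 - s) • x) (s • y) s ∈ interior (join K K') := by
    rw [← hwx']; exact hw
  refine ⟨x, ?_, y, ?_, s, hs0', hs1', hwx'⟩
  · have hmap : Continuous (fun x' : E n => pt3 ((1 - s) • x') (s • y) s) :=
      continuous_pt3.comp (((continuous_const_smul (1 - s)).prodMk continuous_const).prodMk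
        continuous_const)
    have hO2 : IsOpen ((fun x' : E n => pt3 ((1 - s) • x') (s • y) s) ⁻¹' interior (join K K')) :=
      isOpen_interior.preimage hmap
    refine interior_maximal ?_ hO2 hbase
    intro x' hx'
    obtain ⟨t, _, _, a, ha, b, _, hab⟩ :=
      interior_subset (show pt3 ((1 - s) • x') (s • y) s ∈ interior (join K K') from hx')
    have hab' : pt3 ((1 - s) • x') (s • y) s = pt3 ((1 - t) • a) (t • b) t := hab
    have e1 := congrFun hab' (Fin.natAdd (n + m) 0)
    rw [last_pt3, last_pt3] at e1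
    have e2 := congrArg (fun v => fstP (piD v)) hab'
    simp only [fst_pt3] at e2
    rw [← e1] at e2
    have e3 : x' = a := by
      have := congrArg (fun v => (1 - s)⁻¹ • v) e2
      simpa [smul_smul, inv_mul_cancel₀ h2] using this
    rw [e3]; exact ha
  · have hmap : Continuous (fun y' : E m => pt3 ((1 - s) • x) (s • y') s) :=
      continuous_pt3.comp ((continuous_const.prodMk (continuous_const_smul s)).prodMk
        continuous_const)
    have hO2 : IsOpen ((fun y' : E m => pt3 ((1 - s) • x) (s • y') s) ⁻¹' interior (join K K')) :=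
      isOpen_interior.preimage hmap
    refine interior_maximal ?_ hO2 hbase
    intro y' hy'
    obtain ⟨t, _, _, a, _, b, hb, hab⟩ :=
      interior_subset (show pt3 ((1 - s) • x) (s • y') s ∈ interior (join K K') from hy')
    have hab' : pt3 ((1 - s) • x) (s • y') s = pt3 ((1 - t) • a) (t • b) t := hab
    have e1 := congrFun hab' (Fin.natAdd (n + m) 0)
    rw [last_pt3, last_pt3] at e1
    have e2 := congrArg (fun v => sndP (piD v)) hab'
    simp only [snd_pt3] at e2
    rw [← e1] at e2
    have e3 : y' = b := by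
      have := congrArg (fun v => s⁻¹ • v) e2
      simpa [smul_smul, inv_mul_cancel₀ hs0'.ne'] using this
    rw [e3]; exact hb

/-- J9. Pattern: `mem_interior_pyramid` in Interior.lean: the set of all `w` with
`0 < w_last < 1`, `(1 - w_last)⁻¹ • (first n coordinates) ∈ interior K` and
`w_last⁻¹ • (middle m coordinates) ∈ interior K'` is open, contains the point, lies in the join. -/
theorem mem_interior_join {n m : ℕ} (K : Set (E n)) (K' : Set (E m)) (z : E n) (z' : E m)
    (hz : z ∈ interior K) (hz' : z' ∈ interior K') (s : ℝ) (h0 : 0 < s) (h1 : s < 1) :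
    pt3 ((1 - s) • z) (s • z') s ∈ interior (join K K') := by
  set V : Set (E (n + m + 1)) :=
    {w | 0 < w (Fin.natAdd (n + m) 0) ∧ w (Fin.natAdd (n + m) 0) < 1} with hVdef
  set f : E (n + m + 1) → E n := fun w => (1 - w (Fin.natAdd (n + m) 0))⁻¹ • fstP (piD w) with hf
  set g : E (n + m + 1) → E m := fun w => (w (Fin.natAdd (n + m) 0))⁻¹ • sndP (piD w) with hg
  have hlast : Continuous (fun w : E (n + m + 1) => w (Fin.natAdd (n + m) 0)) := continuous_apply _
  have hV : IsOpen V :=
    (isOpen_lt continuous_const hlast).inter (isOpen_lt hlast continuous_const)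
  have hfc : ContinuousOn f V := by
    have hi : ContinuousOn (fun w : E (n + m + 1) => (1 - w (Fin.natAdd (n + m) 0))⁻¹) V := by
      refine ContinuousOn.inv₀ (continuous_const.sub hlast).continuousOn ?_
      intro w hw
      have := hw.2
      intro h
      linarith
    exact hi.smul ((continuous_fstP (n := n) (m := m)).comp continuous_piD).continuousOn
  have hgc : ContinuousOn g V := by
    have hi : ContinuousOn (fun w : E (n + m + 1) => (w (Fin.natAdd (n + m) 0))⁻¹) V := by
      refine ContinuousOn.inv₀ hlast.continuousOn ?_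
      intro w hw
      exact hw.1.ne'
    exact hi.smul ((continuous_sndP (n := n) (m := m)).comp continuous_piD).continuousOn
  have hUo : IsOpen ((V ∩ f ⁻¹' interior K) ∩ (V ∩ g ⁻¹' interior K')) :=
    (hfc.isOpen_inter_preimage hV (isOpen_interior (s := K))).inter
      (hgc.isOpen_inter_preimage hV (isOpen_interior (s := K')))
  have hsub : ((V ∩ f ⁻¹' interior K) ∩ (V ∩ g ⁻¹' interior K')) ⊆ join K K' := by
    rintro w ⟨⟨⟨a, b⟩, c⟩, ⟨_, d⟩⟩
    refine ⟨w (Fin.natAdd (n + m) 0), a.le, b.le, _, interior_subset c, _, interior_subset d, ?_⟩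
    have h2 : (1 - w (Fin.natAdd (n + m) 0)) ≠ 0 := by
      intro h; linarith
    simp only [hf, hg]
    rw [smul_smul, mul_inv_cancel₀ h2, one_smul, smul_smul, mul_inv_cancel₀ a.ne', one_smul]
    exact eq_pt3 w
  have hmem : pt3 ((1 - s) • z) (s • z') s ∈ ((V ∩ f ⁻¹' interior K) ∩ (V ∩ g ⁻¹' interior K')) := by
    have h2 : (1 - s) ≠ 0 := by
      intro h; linarith
    have hv : pt3 ((1 - s) • z) (s • z') s ∈ V := by
      refine ⟨?_, ?_⟩
      · rw [last_pt3]; exact h0
      · rw [last_pt3]; exact h1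
    refine ⟨⟨hv, ?_⟩, ⟨hv, ?_⟩⟩
    · show f _ ∈ interior K
      simp only [hf]
      rw [last_pt3, fst_pt3, smul_smul, inv_mul_cancel₀ h2, one_smul]
      exact hz
    · show g _ ∈ interior K'
      simp only [hg]
      rw [last_pt3, snd_pt3, smul_smul, inv_mul_cancel₀ h0.ne', one_smul]
      exact hz'
  exact interior_maximal hsub hUo hmem

end P248
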