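import Vale.Agent.Lib.P248.JDefs

namespace P248

open MeasureTheory P254
open scoped ENNReal

/-- J10. Weighted AM-GM for `(1-s)/(n+1)` (`n+1` times) and `s/(m+1)` (`m+1` times)
(pattern: `s_bound` in Num.lean). -/
theorem s_bound2 (n m : ℕ) (s : ℝ) (h0 : 0 < s) (h1 : s < 1) :
    (1 - s) ^ (n + 1) * s ^ (m + 1)
      ≤ ((n : ℝ) + 1) ^ (n + 1) * ((m : ℝ) + 1) ^ (m + 1) / ((n : ℝ) + m + 2) ^ (n + m + 2) := by
  have hx : 0 < 1 - s := by linarith
  set p : ℝ := (n : ℝ) + 1 with hp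
  set q : ℝ := (m : ℝ) + 1 with hq
  have hp0 : 0 < p := by rw [hp]; positivity
  have hq0 : 0 < q := by rw [hq]; positivity
  have hpq : (n : ℝ) + m + 2 = p + q := by rw [hp, hq]; ring
  rw [hpq]
  set u : ℝ := (1 - s) * (p + q) / p with hu
  set v : ℝ := s * (p + q) / q with hv
  have hu0 : 0 < u := by rw [hu]; positivity
  have hv0 : 0 < v := by rw [hv]; positivity
  have e1 : u ≤ Real.exp (u - 1) := by have := Real.add_one_le_exp (u - 1); linarith
  have e2 : v ≤ Real.exp (v - 1) := by have := Real.add_one_le_exp (v - 1); linarith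
  have f1 : u ^ (n + 1) ≤ Real.exp (((n + 1 : ℕ) : ℝ) * (u - 1)) := by
    rw [Real.exp_nat_mul]; exact pow_le_pow_left₀ hu0.le e1 _
  have f2 : v ^ (m + 1) ≤ Real.exp (((m + 1 : ℕ) : ℝ) * (v - 1)) := by
    rw [Real.exp_nat_mul]; exact pow_le_pow_left₀ hv0.le e2 _
  have hsum : ((n + 1 : ℕ) : ℝ) * (u - 1) + ((m + 1 : ℕ) : ℝ) * (v - 1) = 0 := by
    push_cast
    rw [← hp, ← hq, hu, hv]
    field_simp
    ring
  have g : u ^ (n + 1) * v ^ (m + 1) ≤ 1 := by
    calc u ^ (n + 1) * v ^ (m + 1)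
        ≤ Real.exp (((n + 1 : ℕ) : ℝ) * (u - 1)) * Real.exp (((m + 1 : ℕ) : ℝ) * (v - 1)) :=
          mul_le_mul f1 f2 (by positivity) (by positivity)
      _ = 1 := by rw [← Real.exp_add, hsum, Real.exp_zero]
  have h3 : u ^ (n + 1) * v ^ (m + 1)
      = (1 - s) ^ (n + 1) * s ^ (m + 1) * (p + q) ^ (n + m + 2) / (p ^ (n + 1) * q ^ (m + 1)) := by
    rw [hu, hv, div_pow, div_pow, mul_pow, mul_pow]
    have : n + m + 2 = (n + 1) + (m + 1) := by ring
    rw [this, pow_add (p + q)]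
    field_simp
    ring
  rw [h3, div_le_one (by positivity)] at g
  rw [le_div_iff₀ (by positivity)]
  exact g

/-- J11. -/
theorem s_opt2 (n m : ℕ) :
    (1 - ((m : ℝ) + 1) / ((n : ℝ) + m + 2)) ^ (n + 1) * (((m : ℝ) + 1) / ((n : ℝ) + m + 2)) ^ (m + 1)
      = ((n : ℝ) + 1) ^ (n + 1) * ((m : ℝ) + 1) ^ (m + 1) / ((n : ℝ) + m + 2) ^ (n + m + 2) := by
  have hN : ((n : ℝ) + m + 2) ≠ 0 := by positivity
  have h : 1 - ((m : ℝ) + 1) / ((n : ℝ) + m + 2) = ((n : ℝ) + 1) / ((n : ℝ) + m + 2) := by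
    field_simp
    ring
  have e : n + m + 2 = (n + 1) + (m + 1) := by ring
  rw [h, div_pow, div_pow, e, pow_add ((n : ℝ) + m + 2)]
  field_simp
  ring

/-- J12. -/
theorem mC_ratio2 (n m : ℕ) :
    mC (n + m + 1) / (mC n * mC m)
      = ((n.factorial : ℝ) * (m.factorial : ℝ) / ((n + m + 1).factorial : ℝ)) ^ 2
        * (((n : ℝ) + m + 2) ^ (n + m + 2)
          / (((n : ℝ) + 1) ^ (n + 1) * ((m : ℝ) + 1) ^ (m + 1))) := by
  unfold mC
  have hF : ((n.factorial : ℝ)) ≠ 0 := by positivity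
  have hG : ((m.factorial : ℝ)) ≠ 0 := by positivity
  have hH : (((n + m + 1).factorial : ℝ)) ≠ 0 := by positivity
  have e : ((n + m + 1 : ℕ) : ℝ) + 1 = (n : ℝ) + m + 2 := by push_cast; ring
  rw [e]
  have e2 : n + m + 1 + 1 = n + m + 2 := rfl
  rw [e2]
  field_simp

/-- J13. `ball z r ⊆ K`; testing with `x = z ± (r/2) e_i` gives `|y i| ≤ 2/r`, so the polar lies in a
box `Set.Icc` (compact, finite volume). -/
theorem volume_polarAt_lt_top {n : ℕ} (K : Set (E n)) (z : E n) (hz : z ∈ interior K) :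
    volume (polarAt K z) < ⊤ := by
  classical
  rw [mem_interior_iff_mem_nhds, Metric.mem_nhds_iff] at hz
  obtain ⟨r, hr, hball⟩ := hz
  have hsub : polarAt K z ⊆ Set.Icc (fun _ => -(2 / r)) (fun _ => 2 / r) := by
    intro y hy
    have key : ∀ (i : Fin n) (e : ℝ), |e| = 1 → (r / 2) * (e * y i) ≤ 1 := by
      intro i e he
      have hm : z + (Pi.single i ((r / 2) * e) : E n) ∈ K := by
        apply hball
        rw [Metric.mem_ball, dist_eq_norm, add_sub_cancel_left, Pi.norm_single, Real.norm_eq_abs,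
          abs_mul, he, mul_one, abs_of_pos (by positivity)]
        linarith
      have := hy _ hm
      have e2 : ∑ j, y j * ((z + (Pi.single i ((r / 2) * e) : E n)) j - z j)
          = y i * ((r / 2) * e) := by
        rw [Finset.sum_eq_single i]
        · simp
        · intro j _ hj
          simp [Pi.single_eq_of_ne hj]
        · simp
      rw [e2] at this
      linarith
    constructor
    · intro i
      have := key i (-1) (by simp)
      simp only
      rw [neg_le, div_eq_mul_inv, ← div_eq_mul_inv, le_div_iff₀ hr]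
      linarith
    · intro i
      have := key i 1 (by simp)
      simp only
      rw [le_div_iff₀ hr]
      linarith
  exact (measure_mono hsub).trans_lt isCompact_Icc.measure_lt_top

theorem le_mul_iInf_aux {ι : Type*} (S : Set ι) (hS : S.Nonempty) (a : ι → ℝ≥0∞) (k x : ℝ≥0∞)
    (hk : k ≠ ⊤) (h : ∀ i ∈ S, x ≤ k * a i) : x ≤ k * ⨅ i ∈ S, a i := by
  by_cases hk0 : k = 0
  · obtain ⟨i0, hi0⟩ := hS
    have := h i0 hi0
    simpa [hk0] using this
  · rw [ENNReal.mul_iInf_of_ne hk0 hk]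
    refine le_iInf fun i => ?_
    rw [ENNReal.mul_iInf_of_ne hk0 hk]
    exact le_iInf fun hi => h i hi

/-- J14. Pure `ℝ≥0∞`.  If some `a i = 0` (or `c = 0`) then `x = 0`.  Otherwise
`ENNReal.mul_iInf_of_ne` gives `x ≤ c * a i * ⨅ b` for every `i`; if `⨅ b = 0` then `x = 0`, else
`ENNReal.iInf_mul_of_ne` (`⨅ b ≤ b j < ⊤`). -/
theorem le_mul_iInf_mul_iInf {ι κ : Type*} (S : Set ι) (T : Set κ) (hS : S.Nonempty)
    (hT : T.Nonempty) (a : ι → ℝ≥0∞) (b : κ → ℝ≥0∞) (ha : ∀ i ∈ S, a i ≠ ⊤)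
    (hb : ∀ j ∈ T, b j ≠ ⊤) (c x : ℝ≥0∞) (hc : c ≠ ⊤)
    (h : ∀ i ∈ S, ∀ j ∈ T, x ≤ c * (a i * b j)) :
    x ≤ c * ((⨅ i ∈ S, a i) * (⨅ j ∈ T, b j)) := by
  obtain ⟨i0, hi0⟩ := id hS
  have hAtop : (⨅ i ∈ S, a i) ≠ ⊤ := ne_top_of_le_ne_top (ha i0 hi0) (iInf₂_le i0 hi0)
  have step1 : ∀ j ∈ T, x ≤ (c * ⨅ i ∈ S, a i) * b j := by
    intro j hj
    have := le_mul_iInf_aux S hS a (c * b j) x (ENNReal.mul_ne_top hc (hb j hj)) (fun i hi => by
      have := h i hi j hj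
      calc x ≤ c * (a i * b j) := this
        _ = c * b j * a i := by ring)
    calc x ≤ c * b j * ⨅ i ∈ S, a i := this
      _ = (c * ⨅ i ∈ S, a i) * b j := by ring
  have := le_mul_iInf_aux T hT b (c * ⨅ i ∈ S, a i) x (ENNReal.mul_ne_top hc hAtop) step1
  rw [mul_assoc] at this
  exact this

end P248
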