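import Vale.Agent.Lib.P248.JVol
import Vale.Agent.Lib.P248.JInterior
import Vale.Agent.Lib.P248.JNum

namespace P248

open MeasureTheory P254
open scoped ENNReal

/-- `n! m! / (n+m+1)!` -/
noncomputable def bet (n m : ℕ) : ℝ :=
  (n.factorial : ℝ) * (m.factorial : ℝ) / ((n + m + 1).factorial : ℝ)

theorem bet_pos (n m : ℕ) : 0 < bet n m := by
  unfold bet; positivity

theorem volume_join {n m : ℕ} (K : Set (E n)) (K' : Set (E m)) (hK : IsCompact K)
    (hK' : IsCompact K') :
    volume (join K K') = ENNReal.ofReal (bet n m) * (volume K * volume K') := by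
  have h := vol_join K K' hK hK'
  have hfin : volume K ≠ ⊤ := hK.measure_lt_top.ne
  have hfin' : volume K' ≠ ⊤ := hK'.measure_lt_top.ne
  have hfinJ : volume (join K K') ≠ ⊤ := (isCompact_join K K' hK hK').measure_lt_top.ne
  unfold vol at h
  calc volume (join K K') = ENNReal.ofReal ((volume (join K K')).toReal) :=
        (ENNReal.ofReal_toReal hfinJ).symm
    _ = ENNReal.ofReal (bet n m * ((volume K).toReal * (volume K').toReal)) := by
        rw [h]; rfl
    _ = ENNReal.ofReal (bet n m)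
          * (ENNReal.ofReal ((volume K).toReal) * ENNReal.ofReal ((volume K').toReal)) := by
        rw [ENNReal.ofReal_mul (bet_pos n m).le, ENNReal.ofReal_mul ENNReal.toReal_nonneg]
    _ = _ := by rw [ENNReal.ofReal_toReal hfin, ENNReal.ofReal_toReal hfin']

theorem key_eq2 {n m : ℕ} (K : Set (E n)) (K' : Set (E m)) (hK : IsCompact K) (hK' : IsCompact K')
    (z : E n) (z' : E m) (hz : z ∈ K) (hz' : z' ∈ K') (s : ℝ) (h0 : 0 < s) (h1 : s < 1) :
    volume (join K K') * volume (polarAt (join K K') (pt3 ((1 - s) • z) (s • z') s))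
      = ENNReal.ofReal (bet n m ^ 2 / ((1 - s) ^ (n + 1) * s ^ (m + 1)))
        * ((volume K * volume (polarAt K z)) * (volume K' * volume (polarAt K' z'))) := by
  have h1s : 0 < 1 - s := by linarith
  rw [volume_join K K' hK hK', volume_polar_join K K' z z' hz hz' s h0 h1]
  have e : ENNReal.ofReal (bet n m ^ 2 / ((1 - s) ^ (n + 1) * s ^ (m + 1)))
      = ENNReal.ofReal (bet n m)
        * ENNReal.ofReal ((n.factorial : ℝ) * (m.factorial : ℝ)
          / (((n + m + 1).factorial : ℝ) * ((1 - s) ^ (n + 1) * s ^ (m + 1)))) := by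
    rw [← ENNReal.ofReal_mul (bet_pos n m).le]
    congr 1
    unfold bet
    field_simp
  rw [e]
  ring

theorem kappa2_pos (n m : ℕ) : 0 < mC (n + m + 1) / (mC n * mC m) :=
  div_pos (mC_pos _) (mul_pos (mC_pos _) (mC_pos _))

theorem kappa2_le (n m : ℕ) (s : ℝ) (h0 : 0 < s) (h1 : s < 1) :
    mC (n + m + 1) / (mC n * mC m) ≤ bet n m ^ 2 / ((1 - s) ^ (n + 1) * s ^ (m + 1)) := by
  have h1s : 0 < 1 - s := by linarith
  have hb := s_bound2 n m s h0 h1
  have hpos : 0 < (1 - s) ^ (n + 1) * s ^ (m + 1) := by positivity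
  have hA : (0 : ℝ) < ((n : ℝ) + 1) ^ (n + 1) * ((m : ℝ) + 1) ^ (m + 1) := by positivity
  have hB : (0 : ℝ) < ((n : ℝ) + m + 2) ^ (n + m + 2) := by positivity
  rw [mC_ratio2]
  change bet n m ^ 2 * _ ≤ _
  rw [div_eq_mul_inv (bet n m ^ 2)]
  apply mul_le_mul_of_nonneg_left _ (by positivity)
  rw [← one_div, div_le_div_iff₀ hA hpos, one_mul]
  rw [le_div_iff₀ hB] at hb
  linarith

theorem kappa2_eq (n m : ℕ) :
    bet n m ^ 2 / ((1 - ((m : ℝ) + 1) / ((n : ℝ) + m + 2)) ^ (n + 1)
        * (((m : ℝ) + 1) / ((n : ℝ) + m + 2)) ^ (m + 1))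
      = mC (n + m + 1) / (mC n * mC m) := by
  rw [s_opt2, mC_ratio2]
  change _ = bet n m ^ 2 * _
  field_simp

/-- **The volume product of a join.** -/
theorem volProd_join {n m : ℕ} (K : Set (E n)) (K' : Set (E m)) (hK : IsCompact K)
    (hK' : IsCompact K') (hint : (interior K).Nonempty) (hint' : (interior K').Nonempty) :
    volProd (join K K')
      = ENNReal.ofReal (mC (n + m + 1) / (mC n * mC m)) * (volProd K * volProd K') := by
  apply le_antisymm
  · unfold volProd
    refine le_mul_iInf_mul_iInf (interior K) (interior K') hint hint' _ _ ?_ ?_ _ _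
      ENNReal.ofReal_ne_top ?_
    · intro z hz
      exact ENNReal.mul_ne_top hK.measure_lt_top.ne (volume_polarAt_lt_top K z hz).ne
    · intro z hz
      exact ENNReal.mul_ne_top hK'.measure_lt_top.ne (volume_polarAt_lt_top K' z hz).ne
    · intro z hz z' hz'
      have hden : (0 : ℝ) < (n : ℝ) + m + 2 := by positivity
      have hs0 : (0 : ℝ) < ((m : ℝ) + 1) / ((n : ℝ) + m + 2) := by positivity
      have hs1 : ((m : ℝ) + 1) / ((n : ℝ) + m + 2) < 1 := by
        rw [div_lt_one hden]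
        have : (0 : ℝ) ≤ n := Nat.cast_nonneg n
        linarith
      refine iInf₂_le_of_le _ (mem_interior_join K K' z z' hz hz' _ hs0 hs1) (le_of_eq ?_)
      rw [key_eq2 K K' hK hK' z z' (interior_subset hz) (interior_subset hz') _ hs0 hs1, kappa2_eq]
  · refine le_iInf₂ fun w hw => ?_
    obtain ⟨z, hz, z', hz', s, h0, h1, rfl⟩ := exists_of_mem_interior_join K K' w hw
    rw [key_eq2 K K' hK hK' z z' (interior_subset hz) (interior_subset hz') s h0 h1]
    exact mul_le_mul' (ENNReal.ofReal_le_ofReal (kappa2_le n m s h0 h1))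
      (mul_le_mul' (iInf₂_le z hz) (iInf₂_le z' hz'))

theorem ofReal_mC_join (n m : ℕ) :
    ENNReal.ofReal (mC (n + m + 1))
      = ENNReal.ofReal (mC (n + m + 1) / (mC n * mC m))
        * (ENNReal.ofReal (mC n) * ENNReal.ofReal (mC m)) := by
  rw [← ENNReal.ofReal_mul (mC_pos n).le, ← ENNReal.ofReal_mul (kappa2_pos n m).le,
    div_mul_cancel₀ _ (mul_pos (mC_pos n) (mC_pos m)).ne']

theorem body_join {n m : ℕ} (K : Set (E n)) (K' : Set (E m)) (h : Body K) (h' : Body K') :
    Body (join K K') := by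
  obtain ⟨hK, hc, z, hz⟩ := h
  obtain ⟨hK', hc', z', hz'⟩ := h'
  exact ⟨isCompact_join K K' hK hK', convex_join K K' hc hc',
    ⟨_, mem_interior_join K K' z z' hz hz' (1 / 2) (by norm_num) (by norm_num)⟩⟩

theorem mahlerStrong_join {n m : ℕ} (K : Set (E n)) (K' : Set (E m)) (h : Body K) (h' : Body K')
    (hM : MahlerStrong K) (hM' : MahlerStrong K') : MahlerStrong (join K K') := by
  have hk0 : ENNReal.ofReal (mC (n + m + 1) / (mC n * mC m)) ≠ 0 := by
    simpa using kappa2_pos n m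
  have hn0 : ENNReal.ofReal (mC n) ≠ 0 := by simpa using mC_pos n
  have hm0 : ENNReal.ofReal (mC m) ≠ 0 := by simpa using mC_pos m
  unfold MahlerStrong
  rw [volProd_join K K' h.1 h'.1 h.2.2 h'.2.2, ofReal_mC_join]
  refine ⟨mul_le_mul' le_rfl (mul_le_mul' hM.1 hM'.1), fun heq => ?_⟩
  rw [ENNReal.mul_right_inj hk0 ENNReal.ofReal_ne_top] at heq
  have e1 : volProd K = ENNReal.ofReal (mC n) := by
    refine le_antisymm ?_ hM.1
    have : ENNReal.ofReal (mC m) * volProd K ≤ ENNReal.ofReal (mC m) * ENNReal.ofReal (mC n) := by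
      calc ENNReal.ofReal (mC m) * volProd K ≤ volProd K' * volProd K := mul_le_mul' hM'.1 le_rfl
        _ = ENNReal.ofReal (mC m) * ENNReal.ofReal (mC n) := by rw [mul_comm, heq, mul_comm]
    exact (ENNReal.mul_le_mul_iff_right hm0 ENNReal.ofReal_ne_top).1 this
  have e2 : volProd K' = ENNReal.ofReal (mC m) := by
    refine le_antisymm ?_ hM'.1
    have : ENNReal.ofReal (mC n) * volProd K' ≤ ENNReal.ofReal (mC n) * ENNReal.ofReal (mC m) := by
      calc ENNReal.ofReal (mC n) * volProd K' ≤ volProd K * volProd K' := mul_le_mul' hM.1 le_rfl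
        _ = ENNReal.ofReal (mC n) * ENNReal.ofReal (mC m) := heq
    exact (ENNReal.mul_le_mul_iff_right hn0 ENNReal.ofReal_ne_top).1 this
  exact isSimplex_join K K' (hM.2 e1) (hM'.2 e2)

end P248
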