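import Vale.Agent.Lib.P248.JDefs

namespace P248

open MeasureTheory P254
open scoped ENNReal

theorem pair_aux2 {n m : ℕ} (z x : E n) (z' y : E m) (s t : ℝ) (ζ : E (n + m)) (τ : ℝ) :
    ∑ k, pt ζ τ k * ((Fin.append (Fin.append ((1 - t) • x) (t • y)) (fun _ : Fin 1 => t) :
        E (n + m + 1)) k - pt3 ((1 - s) • z) (s • z') s k)
      = (1 - t) * (∑ i, fstP ζ i * (x i - z i)
            - s * (τ - ∑ i, fstP ζ i * z i + ∑ j, sndP ζ j * z' j))
        + t * (∑ j, sndP ζ j * (y j - z' j)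
            + (1 - s) * (τ - ∑ i, fstP ζ i * z i + ∑ j, sndP ζ j * z' j)) := by
  unfold pt pt3
  rw [Fin.sum_univ_add]
  simp only [Fin.append_left, Fin.append_right, Finset.univ_unique, Finset.sum_singleton]
  rw [Fin.sum_univ_add]
  simp only [Fin.append_left, Fin.append_right, Pi.smul_apply, smul_eq_mul]
  have h1 : ∑ i, ζ (Fin.castAdd m i) * ((1 - t) * x i - (1 - s) * z i)
      = (1 - t) * ∑ i, fstP ζ i * x i - (1 - s) * ∑ i, fstP ζ i * z i := by
    rw [Finset.mul_sum, Finset.mul_sum, ← Finset.sum_sub_distrib]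
    refine Finset.sum_congr rfl fun i _ => ?_
    simp only [fstP]
    ring
  have h1' : ∑ j, ζ (Fin.natAdd n j) * (t * y j - s * z' j)
      = t * ∑ j, sndP ζ j * y j - s * ∑ j, sndP ζ j * z' j := by
    rw [Finset.mul_sum, Finset.mul_sum, ← Finset.sum_sub_distrib]
    refine Finset.sum_congr rfl fun i _ => ?_
    simp only [sndP]
    ring
  have h2 : ∑ i, fstP ζ i * (x i - z i) = ∑ i, fstP ζ i * x i - ∑ i, fstP ζ i * z i := by
    rw [← Finset.sum_sub_distrib]
    refine Finset.sum_congr rfl fun i _ => ?_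
    ring
  have h2' : ∑ j, sndP ζ j * (y j - z' j) = ∑ j, sndP ζ j * y j - ∑ j, sndP ζ j * z' j := by
    rw [← Finset.sum_sub_distrib]
    refine Finset.sum_congr rfl fun i _ => ?_
    ring
  rw [h1, h1', h2, h2']
  ring

theorem mem_prod_iff_J {n m : ℕ} (A : Set (E n)) (B : Set (E m)) (ζ : E (n + m)) :
    ζ ∈ P254.prod A B ↔ fstP ζ ∈ A ∧ sndP ζ ∈ B := by
  constructor
  · rintro ⟨x, hx, y, hy, rfl⟩
    have e1 : fstP (Fin.append x y) = x := by
      funext i
      simp [fstP, Fin.append_left]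
    have e2 : sndP (Fin.append x y) = y := by
      funext j
      simp [sndP, Fin.append_right]
    rw [e1, e2]
    exact ⟨hx, hy⟩
  · rintro ⟨h1, h2⟩
    refine ⟨fstP ζ, h1, sndP ζ, h2, ?_⟩
    funext k
    refine Fin.addCases (fun i => ?_) (fun j => ?_) k
    · simp [fstP, Fin.append_left]
    · simp [sndP, Fin.append_right]

/-- J1. The pairing of `(ζ, τ)` with `((1-t)x, ty, t) - ((1-s)z, sz', s)` is
`(1-t) (⟨ξ,x-z⟩ - s σ) + t (⟨η,y-z'⟩ + (1-s) σ)` with `ξ = fstP ζ`, `η = sndP ζ`,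
`σ = τ - ⟨ξ,z⟩ + ⟨η,z'⟩`; it is `≤ 1` for all `t ∈ [0,1]` iff it is at `t = 0` and `t = 1`.
(`Fin.sum_univ_add`, `Fin.append_left/right`; pattern: `mem_polar_pyramid_iff` in Polar.lean.) -/
theorem mem_polar_join_iff {n m : ℕ} (K : Set (E n)) (K' : Set (E m)) (hK : K.Nonempty)
    (hK' : K'.Nonempty) (z : E n) (z' : E m) (s : ℝ) (ζ : E (n + m)) (τ : ℝ) :
    pt ζ τ ∈ polarAt (join K K') (pt3 ((1 - s) • z) (s • z') s) ↔
      (ζ, τ - ∑ i, fstP ζ i * z i + ∑ j, sndP ζ j * z' j) ∈ TJ K K' z z' s := by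
  constructor
  · intro h
    obtain ⟨x0, hx0⟩ := hK
    obtain ⟨y0, hy0⟩ := hK'
    constructor
    · intro x hx
      have := h (Fin.append (Fin.append ((1 - (0 : ℝ)) • x) ((0 : ℝ) • y0)) (fun _ : Fin 1 => (0 : ℝ)))
        ⟨0, le_refl _, zero_le_one, x, hx, y0, hy0, rfl⟩
      rw [pair_aux2] at this
      simp only at this ⊢
      linarith
    · intro y hy
      have := h (Fin.append (Fin.append ((1 - (1 : ℝ)) • x0) ((1 : ℝ) • y)) (fun _ : Fin 1 => (1 : ℝ)))
        ⟨1, zero_le_one, le_refl _, x0, hx0, y, hy, rfl⟩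
      rw [pair_aux2] at this
      simp only at this ⊢
      linarith
  · rintro ⟨h1, h2⟩ w ⟨t, ht0, ht1, x, hx, y, hy, rfl⟩
    rw [pair_aux2]
    have h3 := h1 x hx
    have h4 := h2 y hy
    simp only at h3 h4
    have h5 := mul_le_mul_of_nonneg_left
      (show ∑ i, fstP ζ i * (x i - z i)
        - s * (τ - ∑ i, fstP ζ i * z i + ∑ j, sndP ζ j * z' j) ≤ 1 by linarith)
      (show (0 : ℝ) ≤ 1 - t by linarith)
    have h6 := mul_le_mul_of_nonneg_left
      (show ∑ j, sndP ζ j * (y j - z' j)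
        + (1 - s) * (τ - ∑ i, fstP ζ i * z i + ∑ j, sndP ζ j * z' j) ≤ 1 by linarith) ht0
    linarith

/-- J2. -/
theorem isClosed_TJ {n m : ℕ} (K : Set (E n)) (K' : Set (E m)) (z : E n) (z' : E m) (s : ℝ) :
    IsClosed (TJ K K' z z' s) := by
  have : TJ K K' z z' s =
      (⋂ x ∈ K, {p : E (n + m) × ℝ | ∑ i, p.1 (Fin.castAdd m i) * (x i - z i) ≤ 1 + s * p.2}) ∩
      ⋂ y ∈ K', {p : E (n + m) × ℝ |
        ∑ j, p.1 (Fin.natAdd n j) * (y j - z' j) ≤ 1 - (1 - s) * p.2} := by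
    ext p
    simp [TJ, scaled, fstP, sndP]
  rw [this]
  refine IsClosed.inter ?_ ?_
  · refine isClosed_biInter fun x _ => ?_
    refine isClosed_le ?_ ?_ <;> fun_prop
  · refine isClosed_biInter fun x _ => ?_
    refine isClosed_le ?_ ?_ <;> fun_prop

/-- J3. `P254.prod A B = {Fin.append x y}`; `P254.prod_reindex`, `volume_measurePreserving_piCongrLeft`
/ `MeasurableEquiv.sumPiEquivProdPi`, `Measure.prod_prod` (pattern: `P237.volume_prod`,
`P254.volG_reindex`). -/
theorem volume_prodF {n m : ℕ} (A : Set (E n)) (B : Set (E m)) :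
    volume (P254.prod A B) = volume A * volume B := by
  set e1 := reMap (finSumFinEquiv : Fin n ⊕ Fin m ≃ Fin (n + m)) with he1
  set e2 := MeasurableEquiv.sumPiEquivProdPi (fun _ : Fin n ⊕ Fin m => ℝ) with he2
  have hmp1 := reMap_mp (finSumFinEquiv : Fin n ⊕ Fin m ≃ Fin (n + m))
  have hmp2 := volume_measurePreserving_sumPiEquivProdPi (fun _ : Fin n ⊕ Fin m => ℝ)
  have hpre : P254.prod A B = e1 ⁻¹' (e2 ⁻¹' (A ×ˢ B)) := by
    ext ζ
    rw [mem_prod_iff_J]
    rfl
  rw [hpre, hmp1.measure_preimage_equiv, hmp2.measure_preimage_equiv, Measure.volume_eq_prod,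
    Measure.prod_prod]

/-- J4. -/
theorem slice_TJ {n m : ℕ} (K : Set (E n)) (K' : Set (E m)) (z : E n) (z' : E m) (s σ : ℝ) :
    {ζ : E (n + m) | (ζ, σ) ∈ TJ K K' z z' s}
      = P254.prod (scaled K z (1 + s * σ)) (scaled K' z' (1 - (1 - s) * σ)) := by
  ext ζ
  rw [mem_prod_iff_J]
  rfl

/-- J5. Substitute `θ = (1-s)(1+sσ)`: `1+sσ = θ/(1-s)`, `1-(1-s)σ = (1-θ)/s`, `dσ = dθ/(s(1-s))`,
then `P254.beta_nat n m 1`. -/
theorem lintegral_beta_affine (n m : ℕ) (s : ℝ) (h0 : 0 < s) (h1 : s < 1) :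
    ∫⁻ σ in Set.Ioo (-(1 / s)) (1 / (1 - s)),
        ENNReal.ofReal ((1 + s * σ) ^ n * (1 - (1 - s) * σ) ^ m)
      = ENNReal.ofReal ((n.factorial : ℝ) * (m.factorial : ℝ)
          / (((n + m + 1).factorial : ℝ) * ((1 - s) ^ (n + 1) * s ^ (m + 1)))) := by
  have hx : 0 < 1 - s := by linarith
  have hab : -(1 / s) ≤ 1 / (1 - s) := by
    have : 0 < 1 / s := by positivity
    have : 0 < 1 / (1 - s) := by positivity
    linarith
  have hcont : Continuous fun σ : ℝ => (1 + s * σ) ^ n * (1 - (1 - s) * σ) ^ m := by fun_prop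
  rw [← ofReal_integral_eq_lintegral_ofReal]
  · congr 1
    rw [← integral_Ioc_eq_integral_Ioo, ← intervalIntegral.integral_of_le hab]
    have hfg : ∀ σ : ℝ, (1 + s * σ) ^ n * (1 - (1 - s) * σ) ^ m
        = (fun u : ℝ => ((1 - s) / s) ^ m * (u ^ n * (1 / (1 - s) - u) ^ m)) (1 + s * σ) := by
      intro σ
      have h3 : 1 - (1 - s) * σ = ((1 - s) / s) * (1 / (1 - s) - (1 + s * σ)) := by
        field_simp
        ring
      simp only
      rw [h3, mul_pow]
      ring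
    rw [intervalIntegral.integral_congr (fun σ _ => hfg σ),
      intervalIntegral.integral_comp_add_mul
        (fun u : ℝ => ((1 - s) / s) ^ m * (u ^ n * (1 / (1 - s) - u) ^ m)) h0.ne' 1]
    have e1 : 1 + s * -(1 / s) = 0 := by
      field_simp
      ring
    have e2 : 1 + s * (1 / (1 - s)) = 1 / (1 - s) := by
      field_simp
      ring
    rw [e1, e2, intervalIntegral.integral_const_mul, beta_nat n m (1 / (1 - s)), smul_eq_mul]
    have e3 : (1 - s) ^ (n + m + 1) = (1 - s) ^ (n + 1) * (1 - s) ^ m := by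
      rw [← pow_add]
      congr 1
      omega
    have hF : ((n + m + 1).factorial : ℝ) ≠ 0 := by positivity
    rw [div_pow, div_pow, one_pow, e3, pow_succ s m]
    field_simp
  · exact (hcont.integrableOn_Icc).mono_set Set.Ioo_subset_Icc_self
  · rw [Filter.EventuallyLE, ae_restrict_iff' measurableSet_Ioo]
    refine Filter.Eventually.of_forall (fun σ hσ => ?_)
    have h2 : 0 ≤ 1 + s * σ := by
      have h3 : s * -(1 / s) < s * σ := mul_lt_mul_of_pos_left hσ.1 h0
      have e1 : s * -(1 / s) = -1 := by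
        field_simp
      linarith
    have h4 : 0 ≤ 1 - (1 - s) * σ := by
      have h3 : (1 - s) * σ < (1 - s) * (1 / (1 - s)) := mul_lt_mul_of_pos_left hσ.2 hx
      have e1 : (1 - s) * (1 / (1 - s)) = 1 := by
        field_simp
      linarith
    exact mul_nonneg (pow_nonneg h2 n) (pow_nonneg h4 m)

end P248
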