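import Vale.Agent.Lib.P248.JPolar

namespace P248

open MeasureTheory P254
open scoped ENNReal

/-- J6. Pattern: `volume_polar_pyramid_eq_TT` in Vol.lean (`volume_eq_lintegral_last` with `n+m`,
`isClosed_polarAt`, `mem_polar_join_iff`, translation invariance in `τ`). -/
theorem volume_polar_join_eq_TJ {n m : ℕ} (K : Set (E n)) (K' : Set (E m)) (hK : K.Nonempty)
    (hK' : K'.Nonempty) (z : E n) (z' : E m) (s : ℝ) :
    volume (polarAt (join K K') (pt3 ((1 - s) • z) (s • z') s))
      = ∫⁻ ζ : E (n + m), volume {σ : ℝ | (ζ, σ) ∈ TJ K K' z z' s} := by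
  rw [volume_eq_lintegral_last _ (isClosed_polarAt _ _).measurableSet]
  refine lintegral_congr ?_
  intro ζ
  have e : {τ : ℝ | pt ζ τ ∈ polarAt (join K K') (pt3 ((1 - s) • z) (s • z') s)}
      = (fun τ : ℝ => τ + (-(∑ i, fstP ζ i * z i) + ∑ j, sndP ζ j * z' j)) ⁻¹'
          {σ : ℝ | (ζ, σ) ∈ TJ K K' z z' s} := by
    ext τ
    simp only [Set.mem_setOf_eq, Set.mem_preimage]
    rw [mem_polar_join_iff K K' hK hK' z z' s ζ τ]
    have : τ - ∑ i, fstP ζ i * z i + ∑ j, sndP ζ j * z' j
        = τ + (-(∑ i, fstP ζ i * z i) + ∑ j, sndP ζ j * z' j) := by ring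
    rw [this]
  rw [e]
  exact measure_preimage_add_right volume _ _

/-- J7. Pattern: `lintegral_TT` in Vol.lean.  By `slice_TJ`, `volume_prodF`, `volume_scaled_polar`
(`scaled K z c` is the set there) the slice has volume
`ofReal ((1+sσ)^n) |polar K| * (ofReal ((1-(1-s)σ)^m) |polar K'|)` for `σ` in the open interval; it is
empty for `σ < -1/s` and for `σ > 1/(1-s)` (`scaled_polar_empty`); two points are null.
Then `lintegral_beta_affine`. -/
theorem lintegral_TJ {n m : ℕ} (K : Set (E n)) (K' : Set (E m)) (z : E n) (z' : E m) (hz : z ∈ K)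
    (hz' : z' ∈ K') (s : ℝ) (h0 : 0 < s) (h1 : s < 1) :
    ∫⁻ σ : ℝ, volume {ζ : E (n + m) | (ζ, σ) ∈ TJ K K' z z' s}
      = ENNReal.ofReal ((n.factorial : ℝ) * (m.factorial : ℝ)
          / (((n + m + 1).factorial : ℝ) * ((1 - s) ^ (n + 1) * s ^ (m + 1))))
        * (volume (polarAt K z) * volume (polarAt K' z')) := by
  have h1s : 0 < 1 - s := by linarith
  have hprodE1 : ∀ (B : Set (E m)), P254.prod (∅ : Set (E n)) B = ∅ := by
    intro B
    have h := volume_prodF (∅ : Set (E n)) B
    ext x
    simp [P254.prod]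
  have hprodE2 : ∀ (A : Set (E n)), P254.prod A (∅ : Set (E m)) = ∅ := by
    intro A
    ext x
    simp [P254.prod]
  have hae : (fun σ : ℝ => volume {ζ : E (n + m) | (ζ, σ) ∈ TJ K K' z z' s}) =ᵐ[volume]
      (Set.Ioo (-(1 / s)) (1 / (1 - s))).indicator
        (fun σ : ℝ => ENNReal.ofReal ((1 + s * σ) ^ n * (1 - (1 - s) * σ) ^ m)
          * (volume (polarAt K z) * volume (polarAt K' z'))) := by
    have hne : ∀ᵐ σ : ℝ ∂volume, σ ≠ -(1 / s) := by
      have : volume ({-(1 / s)} : Set ℝ) = 0 := Real.volume_singleton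
      exact (measure_eq_zero_iff_ae_notMem.1 this).mono (fun σ h => by simpa using h)
    have hne2 : ∀ᵐ σ : ℝ ∂volume, σ ≠ 1 / (1 - s) := by
      have : volume ({1 / (1 - s)} : Set ℝ) = 0 := Real.volume_singleton
      exact (measure_eq_zero_iff_ae_notMem.1 this).mono (fun σ h => by simpa using h)
    filter_upwards [hne, hne2] with σ hσ hσ2
    rw [slice_TJ]
    by_cases hm : σ ∈ Set.Ioo (-(1 / s)) (1 / (1 - s))
    · rw [Set.indicator_of_mem hm]
      have hc : 0 < 1 + s * σ := by
        have := hm.1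
        have h2 : s * (-(1 / s)) < s * σ := mul_lt_mul_of_pos_left this h0
        have h3 : s * (-(1 / s)) = -1 := by field_simp
        linarith
      have hc2 : 0 < 1 - (1 - s) * σ := by
        have := hm.2
        have h2 : (1 - s) * σ < (1 - s) * (1 / (1 - s)) := mul_lt_mul_of_pos_left this h1s
        have h3 : (1 - s) * (1 / (1 - s)) = 1 := by field_simp
        linarith
      rw [volume_prodF]
      have e1 := volume_scaled_polar K z _ hc
      have e2 := volume_scaled_polar K' z' _ hc2
      unfold scaled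
      rw [e1, e2, ENNReal.ofReal_mul (by positivity)]
      ring
    · rw [Set.indicator_of_notMem hm]
      rw [Set.mem_Ioo, not_and_or, not_lt, not_lt] at hm
      rcases hm with hm | hm
      · have hlt : σ < -(1 / s) := lt_of_le_of_ne hm hσ
        have hc : 1 + s * σ < 0 := by
          have h2 : s * σ < s * (-(1 / s)) := mul_lt_mul_of_pos_left hlt h0
          have h3 : s * (-(1 / s)) = -1 := by field_simp
          linarith
        have := scaled_polar_empty K z hz _ hc
        unfold scaled
        rw [this, hprodE1, measure_empty]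
      · have hlt : 1 / (1 - s) < σ := lt_of_le_of_ne hm (Ne.symm hσ2)
        have hc : 1 - (1 - s) * σ < 0 := by
          have h2 : (1 - s) * (1 / (1 - s)) < (1 - s) * σ := mul_lt_mul_of_pos_left hlt h1s
          have h3 : (1 - s) * (1 / (1 - s)) = 1 := by field_simp
          linarith
        have := scaled_polar_empty K' z' hz' _ hc
        unfold scaled
        rw [this, hprodE2, measure_empty]
  rw [lintegral_congr_ae hae, lintegral_indicator measurableSet_Ioo,
    lintegral_mul_const _ (by fun_prop), lintegral_beta_affine n m s h0 h1]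

/-- the volume of the polar of a join -/
theorem volume_polar_join {n m : ℕ} (K : Set (E n)) (K' : Set (E m)) (z : E n) (z' : E m)
    (hz : z ∈ K) (hz' : z' ∈ K') (s : ℝ) (h0 : 0 < s) (h1 : s < 1) :
    volume (polarAt (join K K') (pt3 ((1 - s) • z) (s • z') s))
      = ENNReal.ofReal ((n.factorial : ℝ) * (m.factorial : ℝ)
          / (((n + m + 1).factorial : ℝ) * ((1 - s) ^ (n + 1) * s ^ (m + 1))))
        * (volume (polarAt K z) * volume (polarAt K' z')) := by
  rw [volume_polar_join_eq_TJ K K' ⟨z, hz⟩ ⟨z', hz'⟩ z z' s,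
    lintegral_slice_swap _ (isClosed_TJ K K' z z' s).measurableSet,
    lintegral_TJ K K' z z' hz hz' s h0 h1]

end P248
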