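import Vale.Agent.Lib.P248.Defs

namespace P248

open P254

theorem s_bound (n : ℕ) (s : ℝ) (h0 : 0 < s) (h1 : s < 1) :
    s * (1 - s) ^ (n + 1) ≤ ((n : ℝ) + 1) ^ (n + 1) / ((n : ℝ) + 2) ^ (n + 2) := by
  have hx : 0 < 1 - s := by linarith
  have hpos : 0 < ((n : ℝ) + 1) / (((n : ℝ) + 2) * (1 - s)) := by positivity
  have hB := one_add_mul_le_pow (a := ((n : ℝ) + 1) / (((n : ℝ) + 2) * (1 - s)) - 1)
    (by linarith) (n + 2)
  have e1 : 1 + ((n + 2 : ℕ) : ℝ) * (((n : ℝ) + 1) / (((n : ℝ) + 2) * (1 - s)) - 1)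
      = ((n : ℝ) + 1) * s / (1 - s) := by
    push_cast
    field_simp
    ring
  have e2 : (1 + (((n : ℝ) + 1) / (((n : ℝ) + 2) * (1 - s)) - 1)) ^ (n + 2)
      = ((n : ℝ) + 1) ^ (n + 2) / (((n : ℝ) + 2) ^ (n + 2) * (1 - s) ^ (n + 2)) := by
    rw [add_sub_cancel, div_pow, mul_pow]
  rw [e1, e2, div_le_div_iff₀ hx (by positivity)] at hB
  rw [le_div_iff₀ (by positivity)]
  have hc : 0 < ((n : ℝ) + 1) * (1 - s) := by positivity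
  apply le_of_mul_le_mul_left _ hc
  calc ((n : ℝ) + 1) * (1 - s) * (s * (1 - s) ^ (n + 1) * ((n : ℝ) + 2) ^ (n + 2))
      = ((n : ℝ) + 1) * s * (((n : ℝ) + 2) ^ (n + 2) * (1 - s) ^ (n + 2)) := by ring
    _ ≤ ((n : ℝ) + 1) ^ (n + 2) * (1 - s) := hB
    _ = ((n : ℝ) + 1) * (1 - s) * ((n : ℝ) + 1) ^ (n + 1) := by ring

theorem s_opt (n : ℕ) :
    (1 / ((n : ℝ) + 2)) * (1 - 1 / ((n : ℝ) + 2)) ^ (n + 1)
      = ((n : ℝ) + 1) ^ (n + 1) / ((n : ℝ) + 2) ^ (n + 2) := by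
  have h : 1 - 1 / ((n : ℝ) + 2) = ((n : ℝ) + 1) / ((n : ℝ) + 2) := by
    field_simp
    ring
  rw [h, div_pow, pow_succ ((n : ℝ) + 2) (n + 1)]
  field_simp

theorem mC_ratio (n : ℕ) :
    mC (n + 1) / mC n = ((n : ℝ) + 2) ^ (n + 2) / (((n : ℝ) + 1) ^ (n + 1) * ((n : ℝ) + 1) ^ 2) := by
  unfold mC
  rw [Nat.factorial_succ]
  push_cast
  have hF : ((n.factorial : ℝ)) ≠ 0 := by positivity
  have e : (n : ℝ) + 1 + 1 = n + 2 := by ring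
  rw [e]
  field_simp

theorem mC_pos (n : ℕ) : 0 < mC n := by
  unfold mC; positivity

end P248
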