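import Vale.Agent.Lib.P248.Vol
import Vale.Agent.Lib.P248.Interior
import Vale.Agent.Lib.P248.Num

namespace P248

open MeasureTheory P254
open scoped ENNReal

theorem volume_pyramid {n : ℕ} (K : Set (E n)) (hK : IsCompact K) :
    volume (pyramid K) = ENNReal.ofReal (1 / ((n : ℝ) + 1)) * volume K := by
  have h := vol_pyramid K hK
  have hfin : volume K ≠ ⊤ := hK.measure_lt_top.ne
  have hfin' : volume (pyramid K) ≠ ⊤ := (isCompact_pyramid K hK).measure_lt_top.ne
  unfold vol at h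
  calc volume (pyramid K) = ENNReal.ofReal ((volume (pyramid K)).toReal) :=
        (ENNReal.ofReal_toReal hfin').symm
    _ = ENNReal.ofReal (1 / ((n : ℝ) + 1) * (volume K).toReal) := by
        rw [h]; congr 1; ring
    _ = ENNReal.ofReal (1 / ((n : ℝ) + 1)) * ENNReal.ofReal ((volume K).toReal) :=
        ENNReal.ofReal_mul (by positivity)
    _ = _ := by rw [ENNReal.ofReal_toReal hfin]

theorem key_eq {n : ℕ} (K : Set (E n)) (hK : IsCompact K) (z : E n) (hz : z ∈ K) (s : ℝ)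
    (h0 : 0 < s) (h1 : s < 1) :
    volume (pyramid K) * volume (polarAt (pyramid K) (pt ((1 - s) • z) s))
      = ENNReal.ofReal (1 / (((n : ℝ) + 1) ^ 2 * (s * (1 - s) ^ (n + 1))))
        * (volume K * volume (polarAt K z)) := by
  have h1s : 0 < 1 - s := by linarith
  rw [volume_pyramid K hK, volume_polar_pyramid K z hz s h0 h1]
  have e : ENNReal.ofReal (1 / (((n : ℝ) + 1) ^ 2 * (s * (1 - s) ^ (n + 1))))
      = ENNReal.ofReal (1 / ((n : ℝ) + 1))
        * ENNReal.ofReal (1 / (((n : ℝ) + 1) * s * (1 - s) ^ (n + 1))) := by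
    rw [← ENNReal.ofReal_mul (by positivity)]
    congr 1
    field_simp
  rw [e]
  ring

theorem kappa_le {n : ℕ} (s : ℝ) (h0 : 0 < s) (h1 : s < 1) :
    mC (n + 1) / mC n ≤ 1 / (((n : ℝ) + 1) ^ 2 * (s * (1 - s) ^ (n + 1))) := by
  have h1s : 0 < 1 - s := by linarith
  have hb := s_bound n s h0 h1
  have hpos : 0 < s * (1 - s) ^ (n + 1) := by positivity
  rw [mC_ratio, div_le_div_iff₀ (by positivity) (by positivity)]
  rw [le_div_iff₀ (by positivity)] at hb
  nlinarith [hb, sq_nonneg ((n : ℝ) + 1), (by positivity : (0 : ℝ) < ((n : ℝ) + 1) ^ 2)]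

theorem kappa_eq (n : ℕ) :
    1 / (((n : ℝ) + 1) ^ 2 * ((1 / ((n : ℝ) + 2)) * (1 - 1 / ((n : ℝ) + 2)) ^ (n + 1)))
      = mC (n + 1) / mC n := by
  rw [s_opt, mC_ratio]
  field_simp

theorem kappa_pos (n : ℕ) : 0 < mC (n + 1) / mC n := div_pos (mC_pos _) (mC_pos _)

/-- **The volume product of a pyramid.** -/
theorem volProd_pyramid {n : ℕ} (K : Set (E n)) (hK : IsCompact K) :
    volProd (pyramid K) = ENNReal.ofReal (mC (n + 1) / mC n) * volProd K := by
  have hk0 : ENNReal.ofReal (mC (n + 1) / mC n) ≠ 0 := by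
    simpa using kappa_pos n
  have hkt : ENNReal.ofReal (mC (n + 1) / mC n) ≠ ⊤ := ENNReal.ofReal_ne_top
  apply le_antisymm
  · unfold volProd
    simp only [ENNReal.mul_iInf_of_ne hk0 hkt]
    refine le_iInf₂ fun z hz => ?_
    have hs0 : (0 : ℝ) < 1 / ((n : ℝ) + 2) := by positivity
    have hs1 : 1 / ((n : ℝ) + 2) < 1 := by
      rw [div_lt_one (by positivity)]
      have : (0 : ℝ) ≤ n := Nat.cast_nonneg n
      linarith
    refine iInf₂_le_of_le (pt ((1 - 1 / ((n : ℝ) + 2)) • z) (1 / ((n : ℝ) + 2)))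
      (mem_interior_pyramid K z hz _ hs0 hs1) (le_of_eq ?_)
    rw [key_eq K hK z (interior_subset hz) _ hs0 hs1, kappa_eq]
  · refine le_iInf₂ fun w hw => ?_
    obtain ⟨z, hz, s, h0, h1, rfl⟩ := exists_of_mem_interior_pyramid K w hw
    rw [key_eq K hK z (interior_subset hz) s h0 h1]
    exact mul_le_mul' (ENNReal.ofReal_le_ofReal (kappa_le s h0 h1)) (iInf₂_le z hz)

theorem ofReal_mC_succ (n : ℕ) :
    ENNReal.ofReal (mC (n + 1)) = ENNReal.ofReal (mC (n + 1) / mC n) * ENNReal.ofReal (mC n) := by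
  rw [← ENNReal.ofReal_mul (kappa_pos n).le, div_mul_cancel₀ _ (mC_pos n).ne']

theorem le_pyramid_iff {n : ℕ} (K : Set (E n)) (hK : IsCompact K) :
    ENNReal.ofReal (mC (n + 1)) ≤ volProd (pyramid K) ↔ ENNReal.ofReal (mC n) ≤ volProd K := by
  have hk0 : ENNReal.ofReal (mC (n + 1) / mC n) ≠ 0 := by
    simpa using kappa_pos n
  rw [volProd_pyramid K hK, ofReal_mC_succ, ENNReal.mul_le_mul_iff_right hk0 ENNReal.ofReal_ne_top]

theorem eq_pyramid_iff {n : ℕ} (K : Set (E n)) (hK : IsCompact K) :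
    volProd (pyramid K) = ENNReal.ofReal (mC (n + 1)) ↔ volProd K = ENNReal.ofReal (mC n) := by
  have hk0 : ENNReal.ofReal (mC (n + 1) / mC n) ≠ 0 := by
    simpa using kappa_pos n
  rw [volProd_pyramid K hK, ofReal_mC_succ, ENNReal.mul_right_inj hk0 ENNReal.ofReal_ne_top]

theorem isSimplex_pyramid_iff {n : ℕ} (K : Set (E n)) (hint : (interior K).Nonempty) :
    IsSimplex (pyramid K) ↔ IsSimplex K :=
  ⟨isSimplex_of_pyramid K hint, isSimplex_pyramid K⟩

theorem body_pyramid {n : ℕ} (K : Set (E n)) (h : Body K) : Body (pyramid K) := by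
  obtain ⟨hK, hc, z, hz⟩ := h
  exact ⟨isCompact_pyramid K hK, convex_pyramid K hc,
    ⟨_, mem_interior_pyramid K z hz (1 / 2) (by norm_num) (by norm_num)⟩⟩

theorem mahlerFor_pyramid_iff {n : ℕ} (K : Set (E n)) (h : Body K) :
    MahlerFor (pyramid K) ↔ MahlerFor K := by
  unfold MahlerFor
  rw [le_pyramid_iff K h.1, eq_pyramid_iff K h.1, isSimplex_pyramid_iff K h.2.2]

theorem mahlerQ2_of_succ {n : ℕ} (h : MahlerQ2 (n + 1)) : MahlerQ2 n :=
  fun K hK => (mahlerFor_pyramid_iff K hK).1 (h _ (body_pyramid K hK))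

end P248
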