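import Vale.Agent.Lib.P248.Defs

namespace P248

open MeasureTheory P254
open scoped ENNReal Pointwise

theorem pair_aux {n : ℕ} (z x : E n) (s t : ℝ) (η : E n) (τ : ℝ) :
    ∑ i, pt η τ i * ((Fin.append ((1 - t) • x) (fun _ : Fin 1 => t) : E (n+1)) i
        - pt ((1 - s) • z) s i)
      = (1 - t) * (∑ i, η i * (x i - z i) - s * (τ - ∑ i, η i * z i))
        + t * ((1 - s) * (τ - ∑ i, η i * z i)) := by
  unfold pt
  rw [Fin.sum_univ_add]
  simp only [Fin.append_left, Fin.append_right, Finset.univ_unique, Finset.sum_singleton,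
    Pi.smul_apply, smul_eq_mul]
  have h1 : ∑ i, η i * ((1 - t) * x i - (1 - s) * z i)
      = (1 - t) * ∑ i, η i * x i - (1 - s) * ∑ i, η i * z i := by
    rw [Finset.mul_sum, Finset.mul_sum, ← Finset.sum_sub_distrib]
    refine Finset.sum_congr rfl fun i _ => ?_
    ring
  have h2 : ∑ i, η i * (x i - z i) = ∑ i, η i * x i - ∑ i, η i * z i := by
    rw [← Finset.sum_sub_distrib]
    refine Finset.sum_congr rfl fun i _ => ?_
    ring
  rw [h1, h2]
  ring

theorem mem_polar_pyramid_iff {n : ℕ} (K : Set (E n)) (hK : K.Nonempty) (z : E n) (s : ℝ)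
    (η : E n) (τ : ℝ) :
    pt η τ ∈ polarAt (pyramid K) (pt ((1 - s) • z) s) ↔
      (1 - s) * (τ - ∑ i, η i * z i) ≤ 1 ∧
      ∀ x ∈ K, ∑ i, η i * (x i - z i) ≤ 1 + s * (τ - ∑ i, η i * z i) := by
  constructor
  · intro h
    constructor
    · obtain ⟨x, hx⟩ := hK
      have := h (Fin.append ((1 - (1:ℝ)) • x) (fun _ : Fin 1 => (1:ℝ)))
        ⟨1, zero_le_one, le_refl _, x, hx, rfl⟩
      rw [pair_aux] at this
      linarith
    · intro x hx
      have := h (Fin.append ((1 - (0:ℝ)) • x) (fun _ : Fin 1 => (0:ℝ)))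
        ⟨0, le_refl _, zero_le_one, x, hx, rfl⟩
      rw [pair_aux] at this
      linarith
  · rintro ⟨h1, h2⟩ w ⟨t, ht0, ht1, x, hx, rfl⟩
    rw [pair_aux]
    have h3 := h2 x hx
    have h4 : (1 - t) * (∑ i, η i * (x i - z i) - s * (τ - ∑ i, η i * z i)) ≤ (1 - t) * 1 :=
      mul_le_mul_of_nonneg_left (by linarith) (by linarith)
    have h5 : t * ((1 - s) * (τ - ∑ i, η i * z i)) ≤ t * 1 :=
      mul_le_mul_of_nonneg_left h1 ht0
    linarith

theorem isClosed_polarAt {n : ℕ} (K : Set (E n)) (z : E n) : IsClosed (polarAt K z) := by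
  have : polarAt K z = ⋂ x ∈ K, {y : E n | ∑ i, y i * (x i - z i) ≤ 1} := by
    ext y
    simp [polarAt]
  rw [this]
  refine isClosed_biInter fun x _ => ?_
  refine isClosed_le ?_ continuous_const
  fun_prop

theorem isClosed_TT {n : ℕ} (K : Set (E n)) (z : E n) (s : ℝ) : IsClosed (TT K z s) := by
  have : TT K z s = {p : E n × ℝ | (1 - s) * p.2 ≤ 1} ∩
      ⋂ x ∈ K, {p : E n × ℝ | ∑ i, p.1 i * (x i - z i) ≤ 1 + s * p.2} := by
    ext y
    simp [TT]
  rw [this]
  refine IsClosed.inter (isClosed_le (by fun_prop) continuous_const) ?_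
  refine isClosed_biInter fun x _ => ?_
  refine isClosed_le ?_ ?_ <;> fun_prop

theorem volume_scaled_polar {n : ℕ} (K : Set (E n)) (z : E n) (c : ℝ) (hc : 0 < c) :
    volume {η : E n | ∀ x ∈ K, ∑ i, η i * (x i - z i) ≤ c}
      = ENNReal.ofReal (c ^ n) * volume (polarAt K z) := by
  have : {η : E n | ∀ x ∈ K, ∑ i, η i * (x i - z i) ≤ c} = c • polarAt K z := by
    ext η
    rw [Set.mem_smul_set_iff_inv_smul_mem₀ hc.ne']
    simp only [polarAt, Set.mem_setOf_eq, Pi.smul_apply, smul_eq_mul]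
    refine forall₂_congr fun x _ => ?_
    have : ∑ i, c⁻¹ * η i * (x i - z i) = c⁻¹ * ∑ i, η i * (x i - z i) := by
      rw [Finset.mul_sum]
      refine Finset.sum_congr rfl fun i _ => ?_
      ring
    rw [this, inv_mul_le_iff₀ hc, mul_one]
  rw [this, Measure.addHaar_smul]
  simp [abs_of_pos hc]

theorem scaled_polar_empty {n : ℕ} (K : Set (E n)) (z : E n) (hz : z ∈ K) (c : ℝ) (hc : c < 0) :
    {η : E n | ∀ x ∈ K, ∑ i, η i * (x i - z i) ≤ c} = ∅ := by
  ext η
  simp only [Set.mem_setOf_eq, Set.mem_empty_iff_false, iff_false]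
  intro h
  have := h z hz
  simp at this
  linarith

/-- B6. `∫_{-1/s}^{1/(1-s)} (1+sσ)^n dσ = (1-s)^{-(n+1)} / (s (n+1))`. -/
theorem lintegral_pow_affine (n : ℕ) (s : ℝ) (h0 : 0 < s) (h1 : s < 1) :
    ∫⁻ σ in Set.Ioc (-(1 / s)) (1 / (1 - s)), ENNReal.ofReal ((1 + s * σ) ^ n)
      = ENNReal.ofReal (1 / (((n : ℝ) + 1) * s * (1 - s) ^ (n + 1))) := by
  have hx : 0 < 1 - s := by linarith
  have hab : -(1 / s) ≤ 1 / (1 - s) := by
    have : 0 < 1 / s := by positivity
    have : 0 < 1 / (1 - s) := by positivity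
    linarith
  have hcont : Continuous fun σ : ℝ => (1 + s * σ) ^ n := by fun_prop
  rw [← ofReal_integral_eq_lintegral_ofReal]
  · congr 1
    rw [← intervalIntegral.integral_of_le hab,
      intervalIntegral.integral_comp_add_mul (fun x => x ^ n) h0.ne' 1, integral_pow]
    have e1 : 1 + s * -(1 / s) = 0 := by
      field_simp
      ring
    have e2 : 1 + s * (1 / (1 - s)) = 1 / (1 - s) := by
      field_simp
      ring
    rw [e1, e2, zero_pow (Nat.succ_ne_zero n), div_pow, one_pow, smul_eq_mul, sub_zero]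
    field_simp
  · exact (hcont.integrableOn_Icc).mono_set Set.Ioc_subset_Icc_self
  · rw [Filter.EventuallyLE, ae_restrict_iff' measurableSet_Ioc]
    refine Filter.Eventually.of_forall (fun σ hσ => ?_)
    have h2 : 0 ≤ 1 + s * σ := by
      have := hσ.1
      have h3 : s * -(1 / s) < s * σ := mul_lt_mul_of_pos_left this h0
      have e1 : s * -(1 / s) = -1 := by
        field_simp
      linarith
    exact pow_nonneg h2 n

end P248
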