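import Vale.Agent.Lib.P248.Defs

namespace P248

open MeasureTheory P254
open scoped ENNReal

/-- A1. Fubini in the last coordinate.  Hint: `MeasurableEquiv.piFinSuccAbove (fun _ => ℝ) (Fin.last n)`
with `volume_preserving_piFinSuccAbove`, `pt η τ = Fin.snoc η τ` (`Fin.append_right_eq_snoc`),
`Measure.prod_apply_symm` / `Measure.prod_apply`. -/
theorem volume_eq_lintegral_last {n : ℕ} (S : Set (E (n + 1))) (hS : MeasurableSet S) :
    volume S = ∫⁻ η : E n, volume {τ : ℝ | pt η τ ∈ S} := by
  set e := MeasurableEquiv.piFinSuccAbove (fun _ : Fin (n + 1) => ℝ) (Fin.last n) with he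
  have hmp : MeasurePreserving e.symm volume volume :=
    (volume_preserving_piFinSuccAbove (fun _ : Fin (n + 1) => ℝ) (Fin.last n)).symm
  have h1 : volume S = volume (e.symm ⁻¹' S) := (hmp.measure_preimage hS.nullMeasurableSet).symm
  have hm : MeasurableSet (e.symm ⁻¹' S) := e.symm.measurable hS
  have h2 := Measure.prod_apply_symm (μ := (volume : Measure ℝ))
    (ν := (volume : Measure (Fin n → ℝ))) hm
  rw [h1, Measure.volume_eq_prod, h2]
  refine lintegral_congr (fun η => ?_)
  congr 1
  ext τ
  have h3 : e.symm (τ, η) = pt η τ := by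
    rw [he, MeasurableEquiv.piFinSuccAbove_symm_apply]
    unfold pt
    rw [Fin.append_right_eq_snoc]
    simp [Fin.insertNthEquiv, Fin.insertNth_last']
  simp only [Set.mem_preimage, Set.mem_ofPred_eq]
  rw [h3]

/-- A2. Tonelli for sets: `Measure.prod_apply`, `Measure.prod_apply_symm`. -/
theorem lintegral_slice_swap {n : ℕ} (T : Set (E n × ℝ)) (hT : MeasurableSet T) :
    ∫⁻ η : E n, volume {σ : ℝ | (η, σ) ∈ T} = ∫⁻ σ : ℝ, volume {η : E n | (η, σ) ∈ T} := by
  have h1 := Measure.prod_apply (μ := (volume : Measure (E n))) (ν := (volume : Measure ℝ)) hT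
  have h2 := Measure.prod_apply_symm (μ := (volume : Measure (E n))) (ν := (volume : Measure ℝ)) hT
  exact h1.symm.trans h2

end P248
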