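import Vale.Agent.Lib.P248.SDefs

/-! # P248 units S1, S2: the support function of a symmetric body is a norm; volume of the polar -/

namespace P248
open MeasureTheory
variable {ι : Type*} [Fintype ι]

/-- S1a. The set of values `⟨x, y⟩`, `x ∈ K`, is bounded above and nonempty (compactness). -/
theorem supp_bdd (K : Set (ι → ℝ)) (hK : SymBody K) (y : ι → ℝ) :
    BddAbove ((fun x => x ⬝ᵥ y) '' K) ∧ ((fun x => x ⬝ᵥ y) '' K).Nonempty := by
  obtain ⟨hc, -, ⟨x0, hx0⟩, -⟩ := hK
  have hcont : Continuous (fun x : ι → ℝ => x ⬝ᵥ y) := by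
    unfold dotProduct
    fun_prop
  exact ⟨(hc.image hcont).bddAbove, ⟨_, ⟨x0, interior_subset hx0, rfl⟩⟩⟩

/-- S1b. -/
theorem le_supp (K : Set (ι → ℝ)) (hK : SymBody K) (y : ι → ℝ) {x : ι → ℝ} (hx : x ∈ K) :
    x ⬝ᵥ y ≤ supp K y :=
  le_csSup (supp_bdd K hK y).1 ⟨x, hx, rfl⟩

/-- S1c. -/
theorem supp_le (K : Set (ι → ℝ)) (hK : SymBody K) (y : ι → ℝ) {c : ℝ}
    (h : ∀ x ∈ K, x ⬝ᵥ y ≤ c) : supp K y ≤ c := by
  refine csSup_le (supp_bdd K hK y).2 ?_
  rintro _ ⟨x, hx, rfl⟩
  exact h x hx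

theorem mem_polar_iff (K : Set (ι → ℝ)) (hK : SymBody K) (y : ι → ℝ) :
    y ∈ polar K ↔ supp K y ≤ 1 :=
  ⟨fun h => supp_le K hK y h, fun h x hx => (le_supp K hK y hx).trans h⟩

/-- S1d. -/
theorem supp_zero (K : Set (ι → ℝ)) (hK : SymBody K) : supp K 0 = 0 := by
  apply le_antisymm
  · exact supp_le K hK 0 (fun _ _ => by simp)
  · obtain ⟨x0, hx0⟩ := hK.2.2.1
    have := le_supp K hK 0 (interior_subset hx0)
    simpa using this

/-- S1e (symmetry of `K`). -/
theorem supp_neg (K : Set (ι → ℝ)) (hK : SymBody K) (y : ι → ℝ) : supp K (-y) = supp K y := by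
  apply le_antisymm
  · refine supp_le K hK (-y) (fun x hx => ?_)
    have := le_supp K hK y (hK.2.2.2 x hx)
    simpa using this
  · refine supp_le K hK y (fun x hx => ?_)
    have := le_supp K hK (-y) (hK.2.2.2 x hx)
    simpa using this

/-- S1f. -/
theorem supp_add_le (K : Set (ι → ℝ)) (hK : SymBody K) (y y' : ι → ℝ) :
    supp K (y + y') ≤ supp K y + supp K y' := by
  refine supp_le K hK (y + y') (fun x hx => ?_)
  rw [dotProduct_add]
  exact add_le_add (le_supp K hK y hx) (le_supp K hK y' hx)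

/-- S1g.  `0` is an interior point of `K` (midpoint of `x` and `-x` for an interior point `x`;
e.g. `Convex.interior`, symmetric), so `ε • y ∈ K` for a small `ε > 0` and `ε ⟨y, y⟩ ≤ supp K y`. -/
theorem eq_zero_of_supp (K : Set (ι → ℝ)) (hK : SymBody K) {y : ι → ℝ} (h : supp K y = 0) :
    y = 0 := by
  obtain ⟨x0, hx0⟩ := hK.2.2.1
  have hconv := hK.2.1
  -- `-x0` is an interior point
  have hneg : -x0 ∈ interior K := by
    have hsub : (fun x : ι → ℝ => -x) '' (interior K) ⊆ K := by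
      rintro _ ⟨x, hx, rfl⟩
      exact hK.2.2.2 x (interior_subset hx)
    have hopen : IsOpen ((fun x : ι → ℝ => -x) '' (interior K)) :=
      (Homeomorph.neg (ι → ℝ)).isOpenMap _ isOpen_interior
    exact interior_maximal hsub hopen ⟨x0, hx0, rfl⟩
  have h0 : (0 : ι → ℝ) ∈ interior K := by
    have := hconv.interior hx0 hneg (a := 1/2) (b := 1/2) (by norm_num) (by norm_num) (by norm_num)
    simpa using this
  obtain ⟨ε, hε, hball⟩ := Metric.isOpen_iff.1 isOpen_interior 0 h0
  by_contra hy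
  have hny : 0 < ‖y‖ := norm_pos_iff.2 hy
  set t : ℝ := ε / (2 * ‖y‖) with ht
  have htpos : 0 < t := by positivity
  have hmem : t • y ∈ K := by
    apply interior_subset
    apply hball
    rw [Metric.mem_ball, dist_zero_right, norm_smul, Real.norm_eq_abs, abs_of_pos htpos, ht]
    have : ε / (2 * ‖y‖) * ‖y‖ = ε / 2 := by field_simp
    rw [this]; linarith
  have h1 := le_supp K hK y hmem
  rw [h, smul_dotProduct, smul_eq_mul] at h1
  have h2 : 0 < y ⬝ᵥ y := by
    have h3 : 0 ≤ y ⬝ᵥ y := by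
      unfold dotProduct
      exact Finset.sum_nonneg (fun i _ => mul_self_nonneg _)
    rcases h3.lt_or_eq with h4 | h4
    · exact h4
    · exact absurd (dotProduct_self_eq_zero.1 h4.symm) hy
  nlinarith [mul_pos htpos h2]

/-- S1h (use `supp_neg` for `r < 0`). -/
theorem supp_smul_le (K : Set (ι → ℝ)) (hK : SymBody K) (r : ℝ) (y : ι → ℝ) :
    supp K (r • y) ≤ |r| * supp K y := by
  have hnn : ∀ z, 0 ≤ supp K z := by
    intro z
    obtain ⟨x0, hx0⟩ := hK.2.2.1
    have h1 := le_supp K hK z (interior_subset hx0)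
    have h2 := le_supp K hK z (hK.2.2.2 x0 (interior_subset hx0))
    rw [neg_dotProduct] at h2
    linarith
  have key : ∀ (s : ℝ), 0 ≤ s → ∀ z, supp K (s • z) ≤ s * supp K z := by
    intro s hs z
    refine supp_le K hK (s • z) (fun x hx => ?_)
    rw [dotProduct_smul, smul_eq_mul]
    exact mul_le_mul_of_nonneg_left (le_supp K hK z hx) hs
  rcases le_total 0 r with hr | hr
  · rw [abs_of_nonneg hr]; exact key r hr y
  · rw [abs_of_nonpos hr]
    have := key (-r) (by linarith) (-y)
    rw [supp_neg K hK] at this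
    simpa using this

/-- S2.  `MeasureTheory.measure_lt_one_eq_integral_div_gamma` with `p = 1` and `g = supp K`,
`MeasureTheory.measure_le_eq_lt`, `mem_polar_iff`, `Module.finrank_fintype_fun_eq_card`,
`Real.Gamma_nat_eq_factorial`, `ENNReal.toReal_ofReal` (the integrand is nonnegative). -/
theorem vol_polar [Nonempty ι] (K : Set (ι → ℝ)) (hK : SymBody K) :
    (volume (polar K)).toReal
      = (∫ y : ι → ℝ, Real.exp (-(supp K y))) / (Fintype.card ι).factorial := by
  have hset : polar K = {y : ι → ℝ | supp K y ≤ 1} := by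
    ext y
    exact mem_polar_iff K hK y
  have h1 := supp_zero K hK
  have h2 := supp_neg K hK
  have h3 := supp_add_le K hK
  have h4 : ∀ {y : ι → ℝ}, supp K y = 0 → y = 0 := fun h => eq_zero_of_supp K hK h
  have h5 := supp_smul_le K hK
  rw [hset, MeasureTheory.measure_le_eq_lt (volume : Measure (ι → ℝ)) h1 h2 h3 h4 h5 1,
    MeasureTheory.measure_lt_one_eq_integral_div_gamma (volume : Measure (ι → ℝ)) h1 h2 h3 h4 h5
      (p := 1) one_pos]
  have hG : Real.Gamma ((Module.finrank ℝ (ι → ℝ) : ℝ) / 1 + 1) = (Fintype.card ι).factorial := by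
    rw [Module.finrank_fintype_fun_eq_card, div_one, Real.Gamma_nat_eq_factorial]
  rw [hG]
  simp only [Real.rpow_one]
  rw [ENNReal.toReal_ofReal]
  refine div_nonneg (integral_nonneg fun y => (Real.exp_pos _).le) (by positivity)

end P248
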