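import Vale.Agent.Lib.P248.Slice
import Vale.Agent.Lib.P248.Polar

namespace P248

open MeasureTheory P254
open scoped ENNReal

/-- C1. `volume_eq_lintegral_last` (the polar is closed), `mem_polar_pyramid_iff`, and for every `η`
the `τ`-slice is the preimage of the `σ`-slice of `TT` under `τ ↦ τ - ⟨η,z⟩`
(`measure_preimage_sub_right` / `measure_preimage_add_right`). -/
theorem volume_polar_pyramid_eq_TT {n : ℕ} (K : Set (E n)) (hK : K.Nonempty) (z : E n) (s : ℝ) :
    volume (polarAt (pyramid K) (pt ((1 - s) • z) s))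
      = ∫⁻ η : E n, volume {σ : ℝ | (η, σ) ∈ TT K z s} := by
  rw [volume_eq_lintegral_last _ (isClosed_polarAt _ _).measurableSet]
  refine lintegral_congr fun η => ?_
  have e : {τ : ℝ | pt η τ ∈ polarAt (pyramid K) (pt ((1 - s) • z) s)} =
      (fun τ => τ - ∑ i, η i * z i) ⁻¹' {σ : ℝ | (η, σ) ∈ TT K z s} := by
    ext τ
    exact mem_polar_pyramid_iff K hK z s η τ
  rw [e]
  simp only [sub_eq_add_neg]
  exact measure_preimage_add_right volume _ _

theorem slice_TT_eq {n : ℕ} (K : Set (E n)) (z : E n) (hz : z ∈ K) (s : ℝ) (h0 : 0 < s)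
    (h1 : s < 1) (σ : ℝ) (hσ : σ ≠ -(1 / s)) :
    volume {η : E n | (η, σ) ∈ TT K z s} =
      (Set.Ioc (-(1 / s)) (1 / (1 - s))).indicator
        (fun σ => ENNReal.ofReal ((1 + s * σ) ^ n) * volume (polarAt K z)) σ := by
  have h1s : 0 < 1 - s := by linarith
  by_cases hm : σ ∈ Set.Ioc (-(1 / s)) (1 / (1 - s))
  · rw [Set.indicator_of_mem hm]
    have hc : 0 < 1 + s * σ := by
      have := mul_lt_mul_of_pos_left hm.1 h0
      rw [mul_neg, mul_one_div_cancel h0.ne'] at this
      linarith
    have hu : (1 - s) * σ ≤ 1 := by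
      have := mul_le_mul_of_nonneg_left hm.2 h1s.le
      rwa [mul_one_div_cancel h1s.ne'] at this
    rw [← volume_scaled_polar K z _ hc]
    congr 1
    ext η
    exact ⟨fun h => h.2, fun h => ⟨hu, h⟩⟩
  · rw [Set.indicator_of_notMem hm]
    have hemp : {η : E n | (η, σ) ∈ TT K z s} = ∅ := by
      rw [Set.eq_empty_iff_forall_notMem]
      intro η hη
      rcases lt_or_gt_of_ne hσ with hlt | hgt
      · have hc : 1 + s * σ < 0 := by
          have := mul_lt_mul_of_pos_left hlt h0
          rw [mul_neg, mul_one_div_cancel h0.ne'] at this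
          linarith
        have := scaled_polar_empty K z hz _ hc
        rw [Set.eq_empty_iff_forall_notMem] at this
        exact this η hη.2
      · apply hm
        refine ⟨hgt, ?_⟩
        rw [le_div_iff₀ h1s]
        have := hη.1
        simp only at this
        linarith
    rw [hemp, measure_empty]

/-- C2. For `σ ∈ (-1/s, 1/(1-s)]` the slice has volume `(1+sσ)^n |polar|` (`volume_scaled_polar`), for
`σ > 1/(1-s)` and for `σ < -1/s` it is empty (`scaled_polar_empty`); the point `σ = -1/s` is null.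
So the integrand is a.e. the indicator of the `Ioc` times `ofReal ((1+sσ)^n) * volume (polarAt K z)`;
`lintegral_mul_const'`/`lintegral_mul_const` (measurability: continuity) and `lintegral_pow_affine`. -/
theorem lintegral_TT {n : ℕ} (K : Set (E n)) (z : E n) (hz : z ∈ K) (s : ℝ) (h0 : 0 < s)
    (h1 : s < 1) :
    ∫⁻ σ : ℝ, volume {η : E n | (η, σ) ∈ TT K z s}
      = ENNReal.ofReal (1 / (((n : ℝ) + 1) * s * (1 - s) ^ (n + 1))) * volume (polarAt K z) := by
  have hae : (fun σ : ℝ => volume {η : E n | (η, σ) ∈ TT K z s}) =ᵐ[volume]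
      (Set.Ioc (-(1 / s)) (1 / (1 - s))).indicator
        (fun σ => ENNReal.ofReal ((1 + s * σ) ^ n) * volume (polarAt K z)) := by
    have hn : ({-(1 / s)} : Set ℝ)ᶜ ∈ ae (volume : Measure ℝ) :=
      compl_mem_ae_iff.mpr (measure_singleton _)
    filter_upwards [hn] with σ hσ
    exact slice_TT_eq K z hz s h0 h1 σ hσ
  rw [lintegral_congr_ae hae, lintegral_indicator measurableSet_Ioc,
    lintegral_mul_const _ (by fun_prop), lintegral_pow_affine n s h0 h1]

/-- the volume of the polar of a pyramid -/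
theorem volume_polar_pyramid {n : ℕ} (K : Set (E n)) (z : E n) (hz : z ∈ K) (s : ℝ) (h0 : 0 < s)
    (h1 : s < 1) :
    volume (polarAt (pyramid K) (pt ((1 - s) • z) s))
      = ENNReal.ofReal (1 / (((n : ℝ) + 1) * s * (1 - s) ^ (n + 1))) * volume (polarAt K z) := by
  rw [volume_polar_pyramid_eq_TT K ⟨z, hz⟩ z s,
    lintegral_slice_swap _ (isClosed_TT K z s).measurableSet, lintegral_TT K z hz s h0 h1]

end P248
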